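import Vale.Agent.P267.H826.Ring
import Vale.Agent.P267.H433.StDef
import Vale.Agent.P267.H869.Max
import Vale.Agent.P267.H378.Met2
import Vale.Agent.P267.H332.Pair.Deck
import Vale.Agent.P267.H399.Calc3

/-!
# P267 / ROUTE S, (S1)(a) on the manifold (helper826): `RingGeo → Ring`

`mem_mAt`: a chart which is biholomorphic against every atlas chart is in the maximal holomorphic
atlas; `n1_compare_max`: comparison of the pointwise norm of `(0,1)`-forms with their components in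
such a chart on compact sets; `ring_of_geo`: the local input of helper433's `StDat`.
-/

set_option linter.unusedSectionVars false

open scoped Manifold ContDiff ComplexConjugate Matrix
open Set Filter Topology Metric

noncomputable section

namespace Vale.Agent.P267.H826.Ring

open Vale.Agent.P267.FL Vale.Agent.P267.XT Vale.Agent.P267.H433 Vale.Agent.P267.H869

variable {M : Type} [TopologicalSpace M] [ChartedSpace C2 M] [IsManifold 𝓘(ℂ, C2) ω M]

/-- holomorphic on an open set implies analytic of class `C^ω` -/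
theorem contDiffOn_omega {U : Set C2} (hU : IsOpen U) {g : C2 → C2} (hg : DifferentiableOn ℂ g U) :
    ContDiffOn ℂ ω g U := fun _ hx =>
  (P268.analyticAt_of_differentiableOn hU hg hx).contDiffAt.contDiffWithinAt

/-- biholomorphic charts are in the maximal atlas -/
theorem mem_mAt {P : Ch M}
    (h1 : ∀ e ∈ atlas C2 M, DifferentiableOn ℂ (fun z => P (e.symm z))
      (e.target ∩ e.symm ⁻¹' P.source))
    (h2 : ∀ e ∈ atlas C2 M, DifferentiableOn ℂ (fun z => e (P.symm z))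
      (P.target ∩ P.symm ⁻¹' e.source)) : P ∈ mAt M := by
  have key : ∀ {e : Ch M}, e ∈ atlas C2 M →
      ContDiffOn ℂ ω (fun z => P (e.symm z)) (e.target ∩ e.symm ⁻¹' P.source) ∧
      ContDiffOn ℂ ω (fun z => e (P.symm z)) (P.target ∩ P.symm ⁻¹' e.source) := fun {e} he =>
    ⟨contDiffOn_omega (e.symm.isOpen_inter_preimage P.open_source) (h1 e he),
      contDiffOn_omega (P.symm.isOpen_inter_preimage e.open_source) (h2 e he)⟩
  change P ∈ (contDiffGroupoid ω 𝓘(ℂ, C2)).maximalAtlas M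
  rw [mem_maximalAtlas_iff]
  intro e he
  obtain ⟨k1, k2⟩ := key he
  constructor
  · rw [contDiffGroupoid, mem_groupoid_of_pregroupoid]
    constructor
    · simpa [contDiffPregroupoid, Function.comp_def] using k2
    · simpa [contDiffPregroupoid, Function.comp_def] using k1
  · rw [contDiffGroupoid, mem_groupoid_of_pregroupoid]
    constructor
    · simpa [contDiffPregroupoid, Function.comp_def] using k1
    · simpa [contDiffPregroupoid, Function.comp_def] using k2

/-- the metric in the maximal atlas -/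
theorem isHerm_max {h : M → Matrix (Fin 2) (Fin 2) ℂ} (hh : IsHerm h) :
    @IsHerm M _ (maxCS M) h := by
  refine @IsHerm.mk M _ (maxCS M) h hh.posDef ?_
  have h1 := H332.reg11_iff.1 hh.smooth
  exact (@H332.reg11_iff M _ (maxCS M) (maxM M) ∞ h).2 h1

/-- comparison of norms, holomorphic charts -/
theorem n1_compare_max {h : M → Matrix (Fin 2) (Fin 2) ℂ} (hh : IsHerm h) {P : Ch M}
    (hP : P ∈ mAt M) {K : Set C2} (hKt : K ⊆ P.target) (hK : IsCompact K) (κ : ℤ) :
    ∃ C > 0, ∀ z ∈ K, ∀ (a : M → Fin 2 → ℂ),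
      ‖loc1 κ P a z‖ ≤ C * n1 h κ a (P.symm z) ∧ n1 h κ a (P.symm z) ≤ C * ‖loc1 κ P a z‖ := by
  obtain ⟨C, hC, hCK⟩ := @H378.n1_compare M _ (maxCS M) (maxM M) h (isHerm_max hh) P hP K hKt hK κ
  exact ⟨C, hC, fun z hz a => hCK z hz a⟩

/-! ### the cut-off in `t` -/

/-- the outer cut-off -/
def Ps (χ : ContDiffBump (0 : ℂ)) (z : C2) : ℂ := 1 - ((χ (z 0) : ℝ) : ℂ)

theorem contDiff_Ps (χ : ContDiffBump (0 : ℂ)) : ContDiff ℝ ∞ (Ps χ) :=
  contDiff_const.sub (Complex.ofRealCLM.contDiff.comp (χ.contDiff.comp (contDiff_apply ℝ ℂ 0)))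

theorem continuous_norm0 : Continuous fun y : C2 => ‖y 0‖ := (continuous_apply 0).norm

theorem Ps_eq_zero {χ : ContDiffBump (0 : ℂ)} {z : C2} (h : ‖z 0‖ ≤ χ.rIn) : Ps χ z = 0 := by
  have : χ (z 0) = 1 := χ.one_of_mem_closedBall (by rw [mem_closedBall, dist_zero_right]; exact h)
  simp [Ps, this]

theorem Ps_eq_one {χ : ContDiffBump (0 : ℂ)} {z : C2} (h : χ.rOut ≤ ‖z 0‖) : Ps χ z = 1 := by
  have : χ (z 0) = 0 := χ.zero_of_le_dist (by rwa [dist_zero_right])
  simp [Ps, this]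

theorem norm_Ps_le (χ : ContDiffBump (0 : ℂ)) (z : C2) : ‖Ps χ z‖ ≤ 1 := by
  unfold Ps
  rw [← Complex.ofReal_one, ← Complex.ofReal_sub, Complex.norm_real, Real.norm_eq_abs, abs_le]
  constructor <;> linarith [χ.nonneg (x := z 0), χ.le_one (x := z 0)]

theorem exists_bound_dPs (χ : ContDiffBump (0 : ℂ)) :
    ∃ B, 0 ≤ B ∧ ∀ z i, ‖dzb i (Ps χ) z‖ ≤ B := by
  set F : ℂ → ℂ := fun t => 1 - ((χ t : ℝ) : ℂ) with hF
  have hFs : ContDiff ℝ ∞ F := contDiff_const.sub (Complex.ofRealCLM.contDiff.comp χ.contDiff)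
  have hc : Continuous fun t : ℂ => dzb 0 (Ps χ) ![t, 0] :=
    (H181.contDiff_dzb (contDiff_Ps χ) 0).continuous.comp (by fun_prop)
  have hs : HasCompactSupport fun t : ℂ => dzb 0 (Ps χ) ![t, 0] := by
    refine HasCompactSupport.intro (K := closedBall 0 χ.rOut) (isCompact_closedBall _ _) ?_
    intro t ht
    have ht' : χ.rOut < ‖(![t, 0] : C2) 0‖ := by simpa using ht
    have hev : Ps χ =ᶠ[𝓝 (![t, 0] : C2)] fun _ => 1 := by
      filter_upwards [continuous_norm0.continuousAt.eventually (isOpen_Ioi.mem_nhds ht')] with y hy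
      exact Ps_eq_one (le_of_lt hy)
    rw [dzb_congr hev, FL.dzb_const]
  obtain ⟨B, hB⟩ := hc.bounded_above_of_compact_support hs
  have hB0 : 0 ≤ B := (norm_nonneg _).trans (hB 0)
  refine ⟨B, hB0, fun z i => ?_⟩
  fin_cases i
  · have h1 : dzb 0 (Ps χ) z = dzb 0 (Ps χ) ![z 0, 0] :=
      dzb_self (F := F) (by simp) (hFs.differentiable (by simp) _)
    change ‖dzb 0 (Ps χ) z‖ ≤ B
    rw [h1]
    exact hB _
  · have h1 : dzb 1 (Ps χ) z = 0 :=
      dzb_other (F := F) (by decide) (hFs.differentiable (by simp) _)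
    change ‖dzb 1 (Ps χ) z‖ ≤ B
    rw [h1, norm_zero]
    exact hB0

/-- `At1` in a holomorphic chart -/
theorem at1_max {V : Type*} [NormedAddCommGroup V] [NormedSpace ℂ V] {n : WithTop ℕ∞} {κ : ℤ}
    {s : M → Fin 2 → V} {x : M} (h : At1 n κ s x) {e : Ch M}
    (he : e ∈ mAt M) (hx : x ∈ e.source) : ContDiffAt ℝ n (loc1 κ e s) (e x) :=
  @loc1_contDiffAt_change M _ (maxCS M) V _ _ (maxM M) n κ e (chartAt C2 x) he
    (atlas_subset_mAt (chart_mem_atlas C2 x)) x hx (mem_chart_source C2 x) s h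

/-- `At0` from a holomorphic chart -/
theorem at0_of_max' {V : Type*} [NormedAddCommGroup V] [NormedSpace ℂ V] {n : WithTop ℕ∞} {κ : ℤ}
    {s : M → V} {x : M} {e : Ch M} (he : e ∈ mAt M)
    (hx : x ∈ e.source) (h : ContDiffAt ℝ n (loc0 κ e s) (e x)) : At0 n κ s x :=
  @loc0_contDiffAt_change M _ (maxCS M) V _ _ (maxM M) n κ (chartAt C2 x) e
    (atlas_subset_mAt (chart_mem_atlas C2 x)) he x (mem_chart_source C2 x) hx s h

/-- equality of `(0,1)`-forms may be tested in one holomorphic chart -/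
theorem eq_of_loc1 {V : Type*} [NormedAddCommGroup V] [NormedSpace ℂ V] {P : Ch M} (hP : P ∈ mAt M)
    {y : M} (hy : y ∈ P.source) {a b : M → Fin 2 → V}
    (h : ∀ i, loc1 0 P a (P y) i = loc1 0 P b (P y) i) : a y = b y := by
  have hc : chartAt C2 y ∈ mAt M := atlas_subset_mAt (chart_mem_atlas C2 y)
  rw [← loc1_chartAt 0 a y, ← loc1_chartAt 0 b y]
  funext i
  rw [max_loc1_change hc hP (mem_chart_source C2 y) hy, max_loc1_change hc hP (mem_chart_source C2 y) hy]
  simp only [h]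

theorem continuous_height (D : XTData M) : Continuous D.f := by
  have h1 : Continuous fun x => (D.f x : ℂ) := D.f_smooth.continuous
  have h2 := Complex.continuous_re.comp h1
  simpa [Function.comp_def] using h2

theorem isOpen_rg (P : Ch M) (ε r s : ℝ) : IsOpen (rg P ε r s) := by
  have h : rg P ε r s = P.source ∩ P ⁻¹' (Rg r s ε) := by
    ext y
    exact Iff.rfl
  rw [h]
  exact P.isOpen_inter_preimage (isOpen_Rg r s ε)

theorem rg_mono (P : Ch M) (ε : ℝ) {r r' s s' : ℝ} (hr : r' ≤ r) (hs : s ≤ s') :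
    rg P ε r s ⊆ rg P ε r' s' := fun _ hy =>
  ⟨hy.1, hr.trans_lt hy.2.1, hy.2.2.1.trans_le hs, hy.2.2.2⟩

open Classical in
/-- **ROUTE S, (S1)(a), global form.** -/
theorem ring_of_geo (D : XTData M) (d : ℝ) {A N N' F : Set M} {P : Ch M} {ε r₀ r₁ r₂ r₃ r₄ : ℝ}
    (h : RingGeo A N N' F P ε r₀ r₁ r₂ r₃ r₄) : Ring D d N N' F := by
  have hP : P ∈ mAt M := mem_mAt h.hol h.hol'
  set Kc : Set C2 := {z : C2 | r₀ ≤ ‖z 0‖ ∧ ‖z 0‖ ≤ r₄ ∧ ‖z 1‖ ≤ ε} with hKc
  have hKcl : IsClosed Kc := (isClosed_le continuous_const continuous_norm0).inter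
    ((isClosed_le continuous_norm0 continuous_const).inter
      (isClosed_le continuous_norm1 continuous_const))
  have hK : IsCompact Kc := by
    refine (isCompact_closedBall (0 : C2) (max r₄ ε)).of_isClosed_subset hKcl ?_
    intro z hz
    rw [mem_closedBall_zero_iff, pi_norm_le_iff_of_nonneg (h.ε_pos.le.trans (le_max_right _ _))]
    intro i
    fin_cases i
    · exact hz.2.1.trans (le_max_left _ _)
    · exact hz.2.2.trans (le_max_right _ _)
  obtain ⟨Cn, hCn, hcmp⟩ := n1_compare_max D.herm hP h.tgt hK 0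
  -- the weight on the compact ring
  obtain ⟨F0, hF0⟩ := (hK.image_of_continuousOn (P.continuousOn_symm.mono h.tgt)).exists_bound_of_continuousOn
    (f := fun y => d * D.f y) (continuous_const.mul (continuous_height D)).continuousOn
  set W : ℝ := Real.exp |F0| with hW
  have hW0 : 0 < W := Real.exp_pos _
  have hfb : ∀ y ∈ rg P ε r₀ r₄, |d * D.f y| ≤ |F0| := by
    intro y hy
    refine (hF0 y ⟨P y, ⟨hy.2.1.le, hy.2.2.1.le, hy.2.2.2.le⟩, P.left_inv hy.1⟩).trans (le_abs_self _)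
  have hwu : ∀ y ∈ rg P ε r₀ r₄, Real.exp (-d * D.f y) ≤ W := fun y hy => by
    refine Real.exp_le_exp.2 ?_
    have := abs_le.1 (hfb y hy)
    linarith [this.1]
  have hwl : ∀ y ∈ rg P ε r₀ r₄, 1 ≤ W * Real.exp (-d * D.f y) := fun y hy => by
    rw [hW, ← Real.exp_add]
    refine Real.one_le_exp ?_
    have := abs_le.1 (hfb y hy)
    linarith [this.2]
  obtain ⟨Cr, hCr, hring⟩ := ring h.r01 h.r34 ε
  set q : ℝ := (r₁ + r₂) / 2 with hq
  have hq1 : r₁ < q := by have := h.r12; rw [hq]; linarith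
  have hq2 : q < r₂ := by have := h.r12; rw [hq]; linarith
  have hq0 : 0 < q := by have := h.r0_pos; have := h.r01; linarith
  set χ : ContDiffBump (0 : ℂ) := ⟨q, r₂, hq0, hq2⟩ with hχ
  obtain ⟨Bd, hBd, hdPs⟩ := exists_bound_dPs χ
  refine ⟨Cr * (Cn * W) * W + Cn * ((Bd * Cr + 1) * (Cn * W)) * W, by positivity, fun b B hB hb => ?_⟩
  -- the form in the chart
  set α : C2 → Fin 2 → ℂ := loc1 0 P b with hα
  have hsub : ∀ y ∈ rg P ε r₀ r₄, y ∈ N := fun y hy => by rw [h.N_eq]; exact Or.inr hy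
  have hmem : ∀ z ∈ Rg r₀ r₄ ε, z ∈ P.target ∧ P.symm z ∈ rg P ε r₀ r₄ := by
    intro z hz
    have hzt : z ∈ P.target := h.tgt ⟨hz.1.le, hz.2.1.le, hz.2.2.le⟩
    refine ⟨hzt, P.map_target hzt, ?_⟩
    rw [P.right_inv hzt]
    exact hz
  have hαs : ∀ z ∈ Rg r₀ r₄ ε, ContDiffAt ℝ ∞ α z := by
    intro z hz
    obtain ⟨hzt, hzr⟩ := hmem z hz
    have := at1_max (hb.sm _ (hsub _ hzr)) hP (P.map_target hzt)
    rwa [P.right_inv hzt] at this
  have hαc : ∀ i, ContDiffOn ℝ ∞ (fun z => α z i) (Rg r₀ r₄ ε) := fun i z hz =>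
    (contDiffAt_pi.1 (hαs z hz) i).contDiffWithinAt
  have hαcl : ∀ z ∈ Rg r₀ r₄ ε, dzb 0 (fun w => α w 1) z = dzb 1 (fun w => α w 0) z := by
    intro z hz
    obtain ⟨hzt, hzr⟩ := hmem z hz
    have h1 := max_loc2_dbar1 (κ := 0) hP hzt ((hαs z hz).differentiableAt (by simp))
    have h2 : loc2 0 P (dbar1 0 b) z = 0 := by
      unfold loc2
      rw [hb.cl _ (hsub _ hzr)]
      simp
    rw [h2] at h1
    exact (sub_eq_zero.1 h1.symm)
  set B1 : ℝ := Cn * (B * W) with hB1
  have hB10 : 0 ≤ B1 := by positivity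
  have hαb : ∀ z ∈ Rg r₀ r₄ ε, ∀ i, ‖α z i‖ ≤ B1 := by
    intro z hz i
    obtain ⟨hzt, hzr⟩ := hmem z hz
    have h1 := (hcmp z ⟨hz.1.le, hz.2.1.le, hz.2.2.le⟩ b).1
    refine (norm_le_pi_norm (α z) i).trans (h1.trans ?_)
    rw [hB1]
    gcongr
    exact (hb.bd _ (hsub _ hzr)).trans (by gcongr; exact hwu _ hzr)
  obtain ⟨φ, hφ⟩ := hring ε h.ε_pos le_rfl α B1 hB10 hαc hαcl hαb
  -- the solution
  set g : C2 → ℂ := fun z => Ps χ z * φ z with hg
  set σ : M → ℂ := fun y => if y ∈ rg P ε r₀ r₄ then g (P y) else 0 with hσ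
  have hgs : ∀ z ∈ Rg r₀ r₃ ε, ContDiffAt ℝ ∞ g z ∧
      (∀ i, ‖dzb i g z‖ ≤ (Bd * Cr + 1) * B1) ∧ ‖g z‖ ≤ Cr * B1 ∧
      (r₂ < ‖z 0‖ → ∀ i, dzb i g z = α z i) := by
    intro z hz
    rcases lt_or_ge ‖z 0‖ q with hzq | hzq
    · have hev : g =ᶠ[𝓝 z] fun _ => 0 := by
        filter_upwards [continuous_norm0.continuousAt.eventually (isOpen_Iio.mem_nhds hzq)] with y hy
        rw [hg]
        simp only
        rw [Ps_eq_zero (le_of_lt hy), zero_mul]
      refine ⟨contDiffAt_const.congr_of_eventuallyEq hev, fun i => ?_, ?_, fun hc => ?_⟩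
      · rw [dzb_congr hev, FL.dzb_const, norm_zero]
        positivity
      · rw [hev.self_of_nhds, norm_zero]
        positivity
      · linarith
    · have hzc : z ∈ Rgc r₁ r₃ ε := ⟨hq1.le.trans hzq, hz.2.1.le, hz.2.2⟩
      obtain ⟨p1, p2, p3⟩ := hφ z hzc
      have hz4 : z ∈ Rg r₀ r₄ ε := ⟨hz.1, hz.2.1.trans h.r34, hz.2.2⟩
      have hPs := (contDiff_Ps χ).contDiffAt (x := z)
      have hd : ∀ i, dzb i g z = Ps χ z * dzb i φ z + dzb i (Ps χ) z * φ z := fun i =>
        H181.dzb_mul' (hPs.differentiableAt (by simp)) (p1.differentiableAt (by simp)) i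
      refine ⟨hPs.mul p1, fun i => ?_, ?_, fun hc i => ?_⟩
      · rw [hd, p2]
        calc ‖Ps χ z * α z i + dzb i (Ps χ) z * φ z‖
            ≤ ‖Ps χ z‖ * ‖α z i‖ + ‖dzb i (Ps χ) z‖ * ‖φ z‖ := by
              refine (norm_add_le _ _).trans ?_
              rw [norm_mul, norm_mul]
          _ ≤ 1 * B1 + Bd * (Cr * B1) := by
              gcongr
              · exact norm_Ps_le χ z
              · exact hαb z hz4 i
              · exact hdPs z i
          _ = (Bd * Cr + 1) * B1 := by ring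
      · rw [hg]
        simp only
        rw [norm_mul]
        calc ‖Ps χ z‖ * ‖φ z‖ ≤ 1 * (Cr * B1) := by
              gcongr
              exact norm_Ps_le χ z
          _ = Cr * B1 := one_mul _
      · have hev : Ps χ =ᶠ[𝓝 z] fun _ => 1 := by
          filter_upwards [continuous_norm0.continuousAt.eventually (isOpen_Ioi.mem_nhds hc)] with y hy
          exact Ps_eq_one (le_of_lt hy)
        rw [hd, p2, dzb_congr hev, FL.dzb_const, hev.self_of_nhds]
        ring
  -- on `A` it vanishes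
  have hσA : ∀ y ∈ A, σ =ᶠ[𝓝 y] fun _ => 0 := by
    intro y hy
    filter_upwards [h.A_open.mem_nhds hy] with y' hy'
    rw [hσ]
    simp only
    split_ifs with hr
    · have h1 := h.A_ring y' hy' hr
      have h2 : g (P y') = 0 := by
        rw [hg]
        simp only
        rw [Ps_eq_zero (h1.le.trans hq1.le), zero_mul]
      exact h2
    · rfl
  -- on the ring
  have hσR : ∀ y ∈ rg P ε r₀ r₃, loc0 0 P σ =ᶠ[𝓝 (P y)] g := by
    intro y hy
    have hy4 : y ∈ rg P ε r₀ r₄ := rg_mono P ε le_rfl h.r34.le hy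
    have hz4 : P y ∈ Rg r₀ r₄ ε := hy4.2
    filter_upwards [(isOpen_Rg r₀ r₄ ε).mem_nhds hz4] with z hz
    obtain ⟨hzt, hzr⟩ := hmem z hz
    unfold loc0
    rw [hσ]
    simp only
    rw [if_pos hzr, P.right_inv hzt, zpow_zero, one_smul]
  have hat : ∀ y ∈ rg P ε r₀ r₃, ContDiffAt ℝ ∞ (loc0 0 P σ) (P y) := fun y hy =>
    (hgs (P y) hy.2).1.congr_of_eventuallyEq (hσR y hy)
  have hdb : ∀ y ∈ rg P ε r₀ r₃, ∀ i, loc1 0 P (dbar0 0 σ) (P y) i = dzb i g (P y) := by
    intro y hy i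
    rw [max_loc1_dbar0 hP (P.map_source hy.1) ((hat y hy).differentiableAt (by simp)),
      dzb_congr (hσR y hy)]
  have hval : ∀ y ∈ rg P ε r₀ r₃, σ y = g (P y) := by
    intro y hy
    rw [hσ]
    simp only
    rw [if_pos (rg_mono P ε le_rfl h.r34.le hy)]
  have hWd : ∀ y ∈ rg P ε r₀ r₃, ∀ c : ℝ, 0 ≤ c → c ≤ c * (W * Real.exp (-d * D.f y)) :=
    fun y hy c hc => le_mul_of_one_le_right hc (hwl y (rg_mono P ε le_rfl h.r34.le hy))
  refine ⟨σ, ?_, ?_, ?_, ?_⟩
  · intro y hy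
    rw [h.N'_eq] at hy
    rcases hy with hy | hy
    · exact at0_zero.congr (hσA y hy)
    · exact at0_of_max' hP hy.1 (hat y hy)
  · intro y hy
    rw [h.N'_eq] at hy
    rcases hy with hy | hy
    · rw [(hσA y hy).self_of_nhds, norm_zero]
      positivity
    · rw [hval y hy]
      refine (hgs (P y) hy.2).2.2.1.trans ((hWd y hy _ (by positivity)).trans ?_)
      have h0 : 0 ≤ Cn * ((Bd * Cr + 1) * (Cn * W)) * W * B * Real.exp (-d * D.f y) := by positivity
      calc Cr * B1 * (W * Real.exp (-d * D.f y))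
          = Cr * (Cn * W) * W * B * Real.exp (-d * D.f y) := by rw [hB1]; ring
        _ ≤ _ := by
          rw [add_mul, add_mul]
          linarith
  · intro y hy
    rw [h.N'_eq] at hy
    rcases hy with hy | hy
    · have h1 : dbar0 0 σ y = 0 := by
        rw [dbar0_congr (hσA y hy), dbar0_zero]
      have h2 : n1 D.h 0 (dbar0 0 σ) y = 0 := by
        unfold n1 nsq1
        rw [h1]
        simp
      rw [h2]
      positivity
    · have hyK : P y ∈ Kc := ⟨hy.2.1.le, (hy.2.2.1.trans h.r34).le, hy.2.2.2.le⟩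
      have h1 := (hcmp (P y) hyK (dbar0 0 σ)).2
      rw [P.left_inv hy.1] at h1
      have h2 : ‖loc1 0 P (dbar0 0 σ) (P y)‖ ≤ (Bd * Cr + 1) * B1 := by
        rw [pi_norm_le_iff_of_nonneg (by positivity)]
        intro i
        rw [hdb y hy]
        exact (hgs (P y) hy.2).2.1 i
      refine h1.trans ((mul_le_mul_of_nonneg_left h2 hCn.le).trans
        ((hWd y hy _ (by positivity)).trans ?_))
      have h0 : 0 ≤ Cr * (Cn * W) * W * B * Real.exp (-d * D.f y) := by positivity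
      calc Cn * ((Bd * Cr + 1) * B1) * (W * Real.exp (-d * D.f y))
          = Cn * ((Bd * Cr + 1) * (Cn * W)) * W * B * Real.exp (-d * D.f y) := by rw [hB1]; ring
        _ ≤ _ := by
          rw [add_mul, add_mul]
          linarith
  · intro y hy hyF i
    rw [h.F_eq] at hyF
    have hy4 : y ∈ rg P ε r₀ r₄ := rg_mono P ε (h.r01.le.trans h.r12.le) le_rfl hyF
    rw [h.N'_eq] at hy
    rcases hy with hy | hy
    · exfalso
      have h1 := h.A_ring y hy hy4
      have h2 := hyF.2.1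
      linarith [h.r12]
    · have h1 : dbar0 0 σ y = b y := by
        refine eq_of_loc1 hP hy.1 fun i => ?_
        rw [hdb y hy]
        exact (hgs (P y) hy.2).2.2.2 hyF.2.1 i
      rw [h1]

end Vale.Agent.P267.H826.Ring
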