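import Vale.Agent.P272.K.LIN.Hol
import Mathlib.Analysis.Calculus.MeanValue
import Mathlib.Analysis.Calculus.ContDiff.Bounds
import Mathlib.Analysis.Calculus.ContDiff.Operations

/-!
# Composition operators on `Hol ww (Hol ww V)` (package COMP of the Newlander-Nirenberg theorem)

`HH = Hol ww (Hol ww V)` is the space of functions of two variables which are bounded and
Hoelder in both variables, with the mixed four point condition.
-/

open scoped NNReal Topology
open Filter Set Vale.Agent.P272.K.LIN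

noncomputable section

set_option linter.unusedSectionVars false

namespace Vale.Agent.P267.H826

variable {Y : Type*} {ww : Y → Y → ℝ≥0} {V W U : Type*}
  [NormedAddCommGroup V] [NormedSpace ℝ V] [NormedAddCommGroup W] [NormedSpace ℝ W]
  [NormedAddCommGroup U] [NormedSpace ℝ U]

/-! ### Bounds of the norm of `HH` -/

section bounds

theorem hh_apply_le (g : Hol ww (Hol ww V)) (x y : Y) : ‖g x y‖ ≤ ‖g‖ :=
  (Hol.norm_apply_le (g x) y).trans (Hol.norm_apply_le g x)

theorem hh_snd_le (g : Hol ww (Hol ww V)) (x y y' : Y) : ‖g x y - g x y'‖ ≤ ‖g‖ * ww y y' :=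
  (Hol.norm_sub_le' (g x) y y').trans
    (mul_le_mul_of_nonneg_right (Hol.norm_apply_le g x) (NNReal.coe_nonneg _))

theorem hh_fst_le (g : Hol ww (Hol ww V)) (x x' y : Y) : ‖g x y - g x' y‖ ≤ ‖g‖ * ww x x' := by
  rw [← Hol.sub_apply]
  exact (Hol.norm_apply_le (g x - g x') y).trans (Hol.norm_sub_le' g x x')

theorem hh_mix_le (g : Hol ww (Hol ww V)) (x x' y y' : Y) :
    ‖(g x y - g x y') - (g x' y - g x' y')‖ ≤ ‖g‖ * ww x x' * ww y y' := by
  have h1 : (g x y - g x y') - (g x' y - g x' y') = (g x - g x') y - (g x - g x') y' := by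
    rw [Hol.sub_apply, Hol.sub_apply]; abel
  rw [h1]
  exact (Hol.norm_sub_le' (g x - g x') y y').trans
    (mul_le_mul_of_nonneg_right (Hol.norm_sub_le' g x x') (NNReal.coe_nonneg _))

/-- constructor: the element of `HH` with given values, from the four bounds -/
def mkHH (f : Y → Y → V) (A B C D : ℝ) (hA : ∀ x y, ‖f x y‖ ≤ A)
    (hB : ∀ x y y', ‖f x y - f x y'‖ ≤ B * ww y y')
    (hC : ∀ x x' y, ‖f x y - f x' y‖ ≤ C * ww x x')
    (hD : ∀ x x' y y', ‖(f x y - f x y') - (f x' y - f x' y')‖ ≤ D * ww x x' * ww y y') :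
    Hol ww (Hol ww V) :=
  ⟨fun x => ⟨fun y => f x y, ⟨A, hA x⟩, ⟨B, hB x⟩⟩,
    ⟨max A 0 + max B 0, fun x => Hol.norm_le_of (le_max_right _ _) (le_max_right _ _)
      (fun y => (hA x y).trans (le_max_left _ _))
      (fun y y' => (hB x y y').trans
        (mul_le_mul_of_nonneg_right (le_max_left _ _) (NNReal.coe_nonneg _)))⟩,
    ⟨max C 0 + max D 0, fun x x' => by
      rw [add_mul]
      refine Hol.norm_le_of (mul_nonneg (le_max_right _ _) (NNReal.coe_nonneg _))
        (mul_nonneg (le_max_right _ _) (NNReal.coe_nonneg _)) (fun y => ?_) fun y y' => ?_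
      · rw [Hol.sub_apply]
        exact (hC x x' y).trans
          (mul_le_mul_of_nonneg_right (le_max_left _ _) (NNReal.coe_nonneg _))
      · rw [Hol.sub_apply, Hol.sub_apply]
        have h1 : f x y - f x' y - (f x y' - f x' y') = (f x y - f x y') - (f x' y - f x' y') := by
          abel
        show ‖f x y - f x' y - (f x y' - f x' y')‖ ≤ _
        rw [h1]
        refine (hD x x' y y').trans ?_
        have h2 : 0 ≤ (ww x x' : ℝ) := NNReal.coe_nonneg _
        have h3 : 0 ≤ (ww y y' : ℝ) := NNReal.coe_nonneg _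
        gcongr
        exact le_max_left _ _⟩⟩

@[simp] theorem mkHH_apply (f : Y → Y → V) (A B C D hA hB hC hD) (x y : Y) :
    (mkHH f A B C D hA hB hC hD : Hol ww (Hol ww V)) x y = f x y := rfl

/-- the norm of an element of `HH` from the four bounds -/
theorem norm_hh_le {g : Hol ww (Hol ww V)} {A B C D : ℝ} (hA0 : 0 ≤ A) (hB0 : 0 ≤ B)
    (hC0 : 0 ≤ C) (hD0 : 0 ≤ D) (hA : ∀ x y, ‖g x y‖ ≤ A)
    (hB : ∀ x y y', ‖g x y - g x y'‖ ≤ B * ww y y')
    (hC : ∀ x x' y, ‖g x y - g x' y‖ ≤ C * ww x x')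
    (hD : ∀ x x' y y', ‖(g x y - g x y') - (g x' y - g x' y')‖ ≤ D * ww x x' * ww y y') :
    ‖g‖ ≤ (A + B) + (C + D) := by
  refine Hol.norm_le_of (by positivity) (by positivity) (fun x => ?_) fun x x' => ?_
  · exact Hol.norm_le_of hA0 hB0 (hA x) (hB x)
  · rw [add_mul]
    refine Hol.norm_le_of (by positivity) (by positivity) (fun y => ?_) fun y y' => ?_
    · rw [Hol.sub_apply]; exact hC x x' y
    · rw [Hol.sub_apply, Hol.sub_apply]
      have h1 : g x y - g x' y - (g x y' - g x' y') = (g x y - g x y') - (g x' y - g x' y') := by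
        abel
      rw [h1]
      exact hD x x' y y'

theorem hh_ext {f g : Hol ww (Hol ww V)} (h : ∀ x y, f x y = g x y) : f = g :=
  Hol.ext fun x => Hol.ext fun y => h x y

end bounds

/-! ### The class `C11` -/

/-- bounded, with bounded and Lipschitz derivative, all constants `M` -/
structure C11 (M : ℝ) (B : V → W) : Prop where
  diff : Differentiable ℝ B
  bd : ∀ x, ‖B x‖ ≤ M
  bd1 : ∀ x, ‖fderiv ℝ B x‖ ≤ M
  lip1 : ∀ x y, ‖fderiv ℝ B x - fderiv ℝ B y‖ ≤ M * ‖x - y‖

namespace C11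

variable {M : ℝ} {B : V → W}

theorem nonneg (h : C11 M B) : 0 ≤ M := (norm_nonneg _).trans (h.bd 0)

theorem lip (h : C11 M B) (x y : V) : ‖B x - B y‖ ≤ M * ‖x - y‖ :=
  Convex.norm_image_sub_le_of_norm_fderiv_le (fun z _ => h.diff z) (fun z _ => h.bd1 z)
    convex_univ (mem_univ _) (mem_univ _)

/-- the four point inequality -/
theorem four (h : C11 M B) (a b c d : V) :
    ‖(B a - B b) - (B c - B d)‖ ≤
      M * ‖(a - b) - (c - d)‖ + M * (‖a - c‖ + ‖b - d‖) * ‖a - b‖ := by
  have hM := h.nonneg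
  have key : ∀ t ∈ Icc (0 : ℝ) 1, HasDerivWithinAt
      (fun t : ℝ => B (b + t • (a - b)) - B (d + t • (c - d)))
      (fderiv ℝ B (b + t • (a - b)) (a - b) - fderiv ℝ B (d + t • (c - d)) (c - d))
      (Icc 0 1) t := by
    intro t _
    have h1 : ∀ p q : V, HasDerivAt (fun t : ℝ => B (q + t • (p - q)))
        (fderiv ℝ B (q + t • (p - q)) (p - q)) t := by
      intro p q
      have h2 : HasDerivAt (fun t : ℝ => q + t • (p - q)) (p - q) t := by
        simpa using ((hasDerivAt_id t).smul_const (p - q)).const_add q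
      exact (h.diff _).hasFDerivAt.comp_hasDerivAt t h2
    exact ((h1 a b).sub (h1 c d)).hasDerivWithinAt
  have h3 := norm_image_sub_le_of_norm_deriv_le_segment_01' key
    (C := M * ‖(a - b) - (c - d)‖ + M * (‖a - c‖ + ‖b - d‖) * ‖a - b‖) ?_
  · have h4 : (B a - B b) - (B c - B d) = (B (b + (1 : ℝ) • (a - b)) - B (d + (1 : ℝ) • (c - d))) -
        (B (b + (0 : ℝ) • (a - b)) - B (d + (0 : ℝ) • (c - d))) := by
      simp only [one_smul, zero_smul, add_zero, add_sub_cancel]
      abel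
    rw [h4]
    exact h3
  · intro t ht
    set p := b + t • (a - b) with hp
    set q := d + t • (c - d) with hq
    have h5 : fderiv ℝ B p (a - b) - fderiv ℝ B q (c - d) =
        fderiv ℝ B q ((a - b) - (c - d)) + (fderiv ℝ B p - fderiv ℝ B q) (a - b) := by
      simp only [map_sub, _root_.sub_apply]; abel
    rw [h5]
    refine (norm_add_le _ _).trans (add_le_add ?_ ?_)
    · exact ((fderiv ℝ B q).le_opNorm _).trans
        (mul_le_mul_of_nonneg_right (h.bd1 q) (norm_nonneg _))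
    · refine ((fderiv ℝ B p - fderiv ℝ B q).le_opNorm _).trans
        (mul_le_mul_of_nonneg_right ((h.lip1 p q).trans ?_) (norm_nonneg _))
      refine mul_le_mul_of_nonneg_left ?_ hM
      have h6 : p - q = (1 - t) • (b - d) + t • (a - c) := by
        rw [hp, hq]
        module
      rw [h6, add_comm]
      refine (norm_add_le _ _).trans (add_le_add ?_ ?_)
      · rw [norm_smul, Real.norm_of_nonneg ht.1]
        exact mul_le_of_le_one_left (norm_nonneg _) ht.2.le
      · rw [norm_smul, Real.norm_of_nonneg (by linarith [ht.2])]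
        exact mul_le_of_le_one_left (norm_nonneg _) (by linarith [ht.1])

theorem mono {M' : ℝ} (h : C11 M B) (hM : M ≤ M') : C11 M' B :=
  ⟨h.diff, fun x => (h.bd x).trans hM, fun x => (h.bd1 x).trans hM, fun x y =>
    (h.lip1 x y).trans (mul_le_mul_of_nonneg_right hM (norm_nonneg _))⟩

/-- from bounds of the iterated derivatives -/
theorem of_contDiff (hB : ContDiff ℝ 2 B) (h : ∀ j ≤ 2, ∀ x, ‖iteratedFDeriv ℝ j B x‖ ≤ M) :
    C11 M B := by
  refine ⟨hB.differentiable (by norm_num), fun x => ?_, fun x => ?_, fun x y => ?_⟩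
  · simpa using h 0 (by norm_num) x
  · have := h 1 (by norm_num) x
    rwa [norm_iteratedFDeriv_one] at this
  · have hd : Differentiable ℝ (fderiv ℝ B) :=
      (hB.fderiv_right (m := 1) (by norm_num)).differentiable (by norm_num)
    refine Convex.norm_image_sub_le_of_norm_fderiv_le (fun z _ => hd z) (fun z _ => ?_)
      convex_univ (mem_univ _) (mem_univ _)
    have h2 := h 2 (by norm_num) z
    rw [← norm_iteratedFDeriv_fderiv, norm_iteratedFDeriv_one] at h2
    exact h2

theorem fderiv_of_contDiff (hB : ContDiff ℝ 3 B)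
    (h : ∀ j ≤ 3, ∀ x, ‖iteratedFDeriv ℝ j B x‖ ≤ M) : C11 M (fderiv ℝ B) := by
  refine of_contDiff (hB.fderiv_right (m := 2) (by norm_num)) fun j hj x => ?_
  rw [norm_iteratedFDeriv_fderiv]
  exact h (j + 1) (by omega) x

end C11

/-! ### The composition operator -/

variable {M : ℝ} {B : V → W}

/-- `cmpV B u x y = B (u x y)` -/
def cmpV (B : V → W) {M : ℝ} (hB : C11 M B) (u : Hol ww (Hol ww V)) : Hol ww (Hol ww W) :=
  mkHH (fun x y => B (u x y)) M (M * ‖u‖) (M * ‖u‖) (M * ‖u‖ + M * (2 * ‖u‖) * ‖u‖)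
    (fun x y => hB.bd _)
    (fun x y y' => by
      rw [mul_assoc]
      exact (hB.lip _ _).trans (mul_le_mul_of_nonneg_left (hh_snd_le u x y y') hB.nonneg))
    (fun x x' y => by
      rw [mul_assoc]
      exact (hB.lip _ _).trans (mul_le_mul_of_nonneg_left (hh_fst_le u x x' y) hB.nonneg))
    (fun x x' y y' => by
      have hM := hB.nonneg
      have h1 := hh_mix_le u x x' y y'
      have h2 := hh_fst_le u x x' y
      have h3 := hh_fst_le u x x' y'
      have h4 := hh_snd_le u x y y'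
      have h5 : 0 ≤ (ww x x' : ℝ) := NNReal.coe_nonneg _
      have h6 : 0 ≤ (ww y y' : ℝ) := NNReal.coe_nonneg _
      have h7 : 0 ≤ ‖u‖ := norm_nonneg _
      refine (hB.four (u x y) (u x y') (u x' y) (u x' y')).trans ?_
      calc M * ‖(u x y - u x y') - (u x' y - u x' y')‖ +
            M * (‖u x y - u x' y‖ + ‖u x y' - u x' y'‖) * ‖u x y - u x y'‖
          ≤ M * (‖u‖ * ww x x' * ww y y') +
            M * (‖u‖ * ww x x' + ‖u‖ * ww x x') * (‖u‖ * ww y y') := by gcongr
        _ = (M * ‖u‖ + M * (2 * ‖u‖) * ‖u‖) * ww x x' * ww y y' := by ring)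

@[simp] theorem cmpV_apply (hB : C11 M B) (u : Hol ww (Hol ww V)) (x y : Y) :
    cmpV B hB u x y = B (u x y) := rfl

theorem norm_cmpV_le (hB : C11 M B) (u : Hol ww (Hol ww V)) :
    ‖cmpV B hB u‖ ≤ 2 * M * (1 + ‖u‖) ^ 2 := by
  have hM := hB.nonneg
  have h7 : 0 ≤ ‖u‖ := norm_nonneg _
  have h : ‖cmpV B hB u‖ ≤ (M + M * ‖u‖) + (M * ‖u‖ + (M * ‖u‖ + M * (2 * ‖u‖) * ‖u‖)) := by
    refine norm_hh_le hM (by positivity) (by positivity) (by positivity) (fun x y => hB.bd _)
      (fun x y y' => ?_) (fun x x' y => ?_) fun x x' y y' => ?_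
    · rw [mul_assoc]
      exact (hB.lip _ _).trans (mul_le_mul_of_nonneg_left (hh_snd_le u x y y') hB.nonneg)
    · rw [mul_assoc]
      exact (hB.lip _ _).trans (mul_le_mul_of_nonneg_left (hh_fst_le u x x' y) hB.nonneg)
    · have h1 := hh_mix_le u x x' y y'
      have h2 := hh_fst_le u x x' y
      have h3 := hh_fst_le u x x' y'
      have h4 := hh_snd_le u x y y'
      have h5 : 0 ≤ (ww x x' : ℝ) := NNReal.coe_nonneg _
      have h6 : 0 ≤ (ww y y' : ℝ) := NNReal.coe_nonneg _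
      refine (hB.four (u x y) (u x y') (u x' y) (u x' y')).trans ?_
      calc M * ‖(u x y - u x y') - (u x' y - u x' y')‖ +
            M * (‖u x y - u x' y‖ + ‖u x y' - u x' y'‖) * ‖u x y - u x y'‖
          ≤ M * (‖u‖ * ww x x' * ww y y') +
            M * (‖u‖ * ww x x' + ‖u‖ * ww x x') * (‖u‖ * ww y y') := by gcongr
        _ = (M * ‖u‖ + M * (2 * ‖u‖) * ‖u‖) * ww x x' * ww y y' := by ring
  refine h.trans ?_
  nlinarith [mul_nonneg hM h7]

/-- the pointwise application `P x y = L x y (g x y)` -/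
def appHH (L : Hol ww (Hol ww (V →L[ℝ] W))) (g : Hol ww (Hol ww V)) : Hol ww (Hol ww W) :=
  Hol.bil (Hol.bilL (ContinuousLinearMap.id ℝ (V →L[ℝ] W))) L g

@[simp] theorem appHH_apply (L : Hol ww (Hol ww (V →L[ℝ] W))) (g : Hol ww (Hol ww V)) (x y : Y) :
    appHH L g x y = L x y (g x y) := rfl

theorem norm_appHH_le (L : Hol ww (Hol ww (V →L[ℝ] W))) (g : Hol ww (Hol ww V)) :
    ‖appHH L g‖ ≤ ‖L‖ * ‖g‖ := by
  have h1 := Hol.norm_bil_le (w := ww) (Hol.bilL (w := ww) (ContinuousLinearMap.id ℝ (V →L[ℝ] W)))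
    L g
  refine h1.trans ?_
  have h2 : ‖Hol.bilL (w := ww) (ContinuousLinearMap.id ℝ (V →L[ℝ] W))‖ ≤ 1 := by
    refine (LinearMap.mkContinuous₂_norm_le _ (norm_nonneg _) _).trans ?_
    exact ContinuousLinearMap.norm_id_le
  calc _ ≤ 1 * ‖L‖ * ‖g‖ := by gcongr
    _ = ‖L‖ * ‖g‖ := by ring

/-- **the Lipschitz estimate of the composition operator** -/
theorem norm_cmpV_sub_le (hB : C11 M B) (hB1 : C11 M (fderiv ℝ B)) (u v : Hol ww (Hol ww V)) :
    ‖cmpV B hB u - cmpV B hB v‖ ≤ 8 * M * (1 + ‖u‖ + ‖v‖) ^ 2 * ‖u - v‖ := by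
  have hM := hB.nonneg
  set K := 2 * M * (1 + ‖u‖ + ‖v‖) ^ 2 * ‖u - v‖ with hK
  have hK0 : 0 ≤ K := by positivity
  let P : ℝ → Hol ww (Hol ww W) := fun t => appHH (cmpV (fderiv ℝ B) hB1 (v + t • (u - v))) (u - v)
  have hP : ∀ t ∈ Ico (0 : ℝ) 1, ‖P t‖ ≤ K := by
    intro t ht
    have h1 : ‖v + t • (u - v)‖ ≤ ‖u‖ + ‖v‖ := by
      have h2 : v + t • (u - v) = (1 - t) • v + t • u := by module
      rw [h2, add_comm]
      refine (norm_add_le _ _).trans (add_le_add ?_ ?_)
      · rw [norm_smul, Real.norm_of_nonneg ht.1]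
        exact mul_le_of_le_one_left (norm_nonneg _) ht.2.le
      · rw [norm_smul, Real.norm_of_nonneg (by linarith [ht.2])]
        exact mul_le_of_le_one_left (norm_nonneg _) (by linarith [ht.1])
    refine (norm_appHH_le _ _).trans (mul_le_mul_of_nonneg_right ?_ (norm_nonneg _))
    refine (norm_cmpV_le hB1 _).trans ?_
    have h3 : 0 ≤ ‖v + t • (u - v)‖ := norm_nonneg _
    have h4 : 1 + ‖v + t • (u - v)‖ ≤ 1 + ‖u‖ + ‖v‖ := by linarith
    gcongr
  have hd : ∀ x y (t : ℝ), HasDerivAt (fun t : ℝ => B ((v + t • (u - v)) x y)) (P t x y) t := by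
    intro x y t
    have h2 : HasDerivAt (fun t : ℝ => (v + t • (u - v)) x y) ((u - v) x y) t := by
      simpa using ((hasDerivAt_id t).smul_const ((u - v) x y)).const_add (v x y)
    exact (hB.diff _).hasFDerivAt.comp_hasDerivAt t h2
  have e1 : ∀ x y, B (u x y) = B ((v + (1 : ℝ) • (u - v)) x y) := by
    intro x y; rw [one_smul, add_sub_cancel]
  have e0 : ∀ x y, B (v x y) = B ((v + (0 : ℝ) • (u - v)) x y) := by
    intro x y; rw [zero_smul, add_zero]
  have hfin : ‖cmpV B hB u - cmpV B hB v‖ ≤ (K + K) + (K + K) := by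
    refine norm_hh_le hK0 hK0 hK0 hK0 (fun x y => ?_) (fun x y y' => ?_) (fun x x' y => ?_)
      fun x x' y y' => ?_
    · have h1 := norm_image_sub_le_of_norm_deriv_le_segment_01'
        (fun t _ => (hd x y t).hasDerivWithinAt)
        (C := K) fun t ht => (hh_apply_le (P t) x y).trans (hP t ht)
      simp only [Hol.sub_apply, cmpV_apply]
      rw [e1, e0]
      exact h1
    · have h1 := norm_image_sub_le_of_norm_deriv_le_segment_01'
        (fun t _ => ((hd x y t).sub (hd x y' t)).hasDerivWithinAt)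
        (C := K * ww y y') fun t ht => (hh_snd_le (P t) x y y').trans
          (mul_le_mul_of_nonneg_right (hP t ht) (NNReal.coe_nonneg _))
      simp only [Hol.sub_apply, cmpV_apply]
      rw [e1, e0, e1 x y', e0 x y']
      refine le_trans (le_of_eq ?_) h1
      congr 1
      simp only [Pi.sub_apply]
      abel
    · have h1 := norm_image_sub_le_of_norm_deriv_le_segment_01'
        (fun t _ => ((hd x y t).sub (hd x' y t)).hasDerivWithinAt)
        (C := K * ww x x') fun t ht => (hh_fst_le (P t) x x' y).trans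
          (mul_le_mul_of_nonneg_right (hP t ht) (NNReal.coe_nonneg _))
      simp only [Hol.sub_apply, cmpV_apply]
      rw [e1, e0, e1 x' y, e0 x' y]
      refine le_trans (le_of_eq ?_) h1
      congr 1
      simp only [Pi.sub_apply]
      abel
    · have h1 := norm_image_sub_le_of_norm_deriv_le_segment_01'
        (fun t _ => (((hd x y t).sub (hd x y' t)).sub
          ((hd x' y t).sub (hd x' y' t))).hasDerivWithinAt)
        (C := K * ww x x' * ww y y') fun t ht => (hh_mix_le (P t) x x' y y').trans (by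
          have := hP t ht
          have h5 : 0 ≤ (ww x x' : ℝ) := NNReal.coe_nonneg _
          have h6 : 0 ≤ (ww y y' : ℝ) := NNReal.coe_nonneg _
          gcongr)
      simp only [Hol.sub_apply, cmpV_apply]
      rw [e1, e0, e1 x' y, e0 x' y, e1 x y', e0 x y', e1 x' y', e0 x' y']
      refine le_trans (le_of_eq ?_) h1
      congr 1
      simp only [Pi.sub_apply]
      abel
  refine hfin.trans (le_of_eq ?_)
  rw [hK]; ring

/-! ### The version with `Fin n`-tuples -/

section tuple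

variable {ι : Type*} [Fintype ι]

/-- a tuple of elements of `HH V` as an element of `HH (ι → V)` -/
def piHH (w : ι → Hol ww (Hol ww V)) : Hol ww (Hol ww (ι → V)) :=
  mkHH (fun x y i => w i x y) ‖w‖ ‖w‖ ‖w‖ ‖w‖
    (fun x y => (pi_norm_le_iff_of_nonneg (norm_nonneg w)).2 fun i =>
      (hh_apply_le (w i) x y).trans (norm_le_pi_norm w i))
    (fun x y y' => (pi_norm_le_iff_of_nonneg
        (mul_nonneg (norm_nonneg w) (NNReal.coe_nonneg _))).2 fun i =>
      (hh_snd_le (w i) x y y').trans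
        (mul_le_mul_of_nonneg_right (norm_le_pi_norm w i) (NNReal.coe_nonneg _)))
    (fun x x' y => (pi_norm_le_iff_of_nonneg
        (mul_nonneg (norm_nonneg w) (NNReal.coe_nonneg _))).2 fun i =>
      (hh_fst_le (w i) x x' y).trans
        (mul_le_mul_of_nonneg_right (norm_le_pi_norm w i) (NNReal.coe_nonneg _)))
    (fun x x' y y' => (pi_norm_le_iff_of_nonneg
        (mul_nonneg (mul_nonneg (norm_nonneg w) (NNReal.coe_nonneg _))
          (NNReal.coe_nonneg _))).2 fun i =>
      (hh_mix_le (w i) x x' y y').trans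
        (mul_le_mul_of_nonneg_right (mul_le_mul_of_nonneg_right (norm_le_pi_norm w i)
          (NNReal.coe_nonneg _)) (NNReal.coe_nonneg _)))

@[simp] theorem piHH_apply (w : ι → Hol ww (Hol ww V)) (x y : Y) :
    piHH w x y = fun i => w i x y := rfl

theorem norm_piHH_le (w : ι → Hol ww (Hol ww V)) : ‖piHH w‖ ≤ 4 * ‖w‖ := by
  have h0 := norm_nonneg w
  have h : ‖piHH w‖ ≤ (‖w‖ + ‖w‖) + (‖w‖ + ‖w‖) := by
    refine norm_hh_le h0 h0 h0 h0 (fun x y => ?_) (fun x y y' => ?_) (fun x x' y => ?_)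
      fun x x' y y' => ?_
    · exact (pi_norm_le_iff_of_nonneg h0).2 fun i =>
        (hh_apply_le (w i) x y).trans (norm_le_pi_norm w i)
    · exact (pi_norm_le_iff_of_nonneg (mul_nonneg h0 (NNReal.coe_nonneg _))).2 fun i =>
        (hh_snd_le (w i) x y y').trans
          (mul_le_mul_of_nonneg_right (norm_le_pi_norm w i) (NNReal.coe_nonneg _))
    · exact (pi_norm_le_iff_of_nonneg (mul_nonneg h0 (NNReal.coe_nonneg _))).2 fun i =>
        (hh_fst_le (w i) x x' y).trans
          (mul_le_mul_of_nonneg_right (norm_le_pi_norm w i) (NNReal.coe_nonneg _))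
    · exact (pi_norm_le_iff_of_nonneg (mul_nonneg (mul_nonneg h0 (NNReal.coe_nonneg _))
          (NNReal.coe_nonneg _))).2 fun i =>
        (hh_mix_le (w i) x x' y y').trans
          (mul_le_mul_of_nonneg_right (mul_le_mul_of_nonneg_right (norm_le_pi_norm w i)
            (NNReal.coe_nonneg _)) (NNReal.coe_nonneg _))
  linarith

theorem piHH_sub (w v : ι → Hol ww (Hol ww V)) : piHH (w - v) = piHH w - piHH v :=
  hh_ext fun _ _ => rfl

/-- The composition `B (w₀, w₁, ...)`; it is `0` if the composition is not in the space.  With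
values in any real normed space `W`. -/
def cmp (B : (ι → V) → W) (w : ι → Hol ww (Hol ww V)) : Hol ww (Hol ww W) :=
  open Classical in
  if h : ∃ g : Hol ww (Hol ww W), ∀ x y, g x y = B fun i => w i x y then h.choose else 0

theorem cmp_eq {B : (ι → V) → W} {M : ℝ} (hB : C11 M B) (w : ι → Hol ww (Hol ww V)) :
    cmp B w = cmpV B hB (piHH w) := by
  have h : ∃ g : Hol ww (Hol ww W), ∀ x y, g x y = B fun i => w i x y :=
    ⟨cmpV B hB (piHH w), fun x y => rfl⟩
  rw [cmp, dif_pos h]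
  exact hh_ext fun x y => h.choose_spec x y

@[simp] theorem cmp_apply {B : (ι → V) → W} {M : ℝ} (hB : C11 M B)
    (w : ι → Hol ww (Hol ww V)) (x y : Y) : cmp B w x y = B fun i => w i x y := by
  rw [cmp_eq hB]; rfl

theorem norm_cmp_le {B : (ι → V) → W} {M : ℝ} (hB : C11 M B) (w : ι → Hol ww (Hol ww V)) :
    ‖cmp B w‖ ≤ 32 * M * (1 + ‖w‖) ^ 2 := by
  rw [cmp_eq hB]
  have hM := hB.nonneg
  have h0 := norm_nonneg w
  refine (norm_cmpV_le hB _).trans ?_
  have h1 : 1 + ‖piHH w‖ ≤ 4 * (1 + ‖w‖) := by linarith [norm_piHH_le w]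
  have h2 : 0 ≤ 1 + ‖piHH w‖ := by positivity
  calc 2 * M * (1 + ‖piHH w‖) ^ 2 ≤ 2 * M * (4 * (1 + ‖w‖)) ^ 2 := by gcongr
    _ = 32 * M * (1 + ‖w‖) ^ 2 := by ring

theorem norm_cmp_sub_le {B : (ι → V) → W} {M : ℝ} (hB : C11 M B) (hB1 : C11 M (fderiv ℝ B))
    (w v : ι → Hol ww (Hol ww V)) :
    ‖cmp B w - cmp B v‖ ≤ 512 * M * (1 + ‖w‖ + ‖v‖) ^ 2 * ‖w - v‖ := by
  rw [cmp_eq hB, cmp_eq hB]
  have hM := hB.nonneg
  have h0 := norm_nonneg w
  have h0' := norm_nonneg v
  refine (norm_cmpV_sub_le hB hB1 _ _).trans ?_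
  have h1 : 1 + ‖piHH w‖ + ‖piHH v‖ ≤ 4 * (1 + ‖w‖ + ‖v‖) := by
    linarith [norm_piHH_le w, norm_piHH_le v]
  have h2 : 0 ≤ 1 + ‖piHH w‖ + ‖piHH v‖ := by positivity
  have h3 : ‖piHH w - piHH v‖ ≤ 4 * ‖w - v‖ := by
    rw [← piHH_sub]; exact norm_piHH_le _
  calc 8 * M * (1 + ‖piHH w‖ + ‖piHH v‖) ^ 2 * ‖piHH w - piHH v‖
      ≤ 8 * M * (4 * (1 + ‖w‖ + ‖v‖)) ^ 2 * (4 * ‖w - v‖) := by gcongr
    _ = 512 * M * (1 + ‖w‖ + ‖v‖) ^ 2 * ‖w - v‖ := by ring

end tuple

end Vale.Agent.P267.H826
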