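import Vale.Agent.P267.H515.NN
import Vale.Agent.P267.H826.Comp

/-!
# P267 / EG-NN: the composition hypothesis of `H515.NN` holds, hence the unconditional
Newlander-Nirenberg theorem for small integrable structures on the unit polydisc of `ℂ²`
-/

open Set Filter Topology
open scoped ContDiff NNReal ComplexConjugate
open Vale.Agent.P272.K.LIN Vale.Agent.P267.H515
open Vale.Agent.P267.FL (dz dzb C2)

noncomputable section

namespace Vale.Agent.P267.H826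

/-- the hypothesis of `H515.nn_of` -/
theorem compHyp : CompHyp := by
  intro R
  refine ⟨512 * (1 + |R| + |R|) ^ 2, by positivity, fun B M hB hM h => ?_⟩
  have h0 : C11 M B := C11.of_contDiff (hB.of_le (by norm_num)) fun j hj => h j (by omega)
  have h1 : C11 M (fderiv ℝ B) := C11.fderiv_of_contDiff hB h
  refine ⟨cmp B, fun w z1 z2 => cmp_apply h0 w z1 z2, fun w hw => ?_, fun w v hw hv => ?_⟩
  · have hw' : ‖w‖ ≤ |R| := hw.trans (le_abs_self R)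
    have h2 := norm_nonneg w
    have h3 := abs_nonneg R
    calc ‖cmp B w‖ ≤ 32 * M * (1 + ‖w‖) ^ 2 := norm_cmp_le h0 w
      _ ≤ 512 * M * (1 + |R| + |R|) ^ 2 := by
        have h4 : 1 + ‖w‖ ≤ 1 + |R| + |R| := by linarith
        gcongr
        norm_num
      _ = 512 * (1 + |R| + |R|) ^ 2 * M := by ring
  · have hw' : ‖w‖ ≤ |R| := hw.trans (le_abs_self R)
    have hv' : ‖v‖ ≤ |R| := hv.trans (le_abs_self R)
    calc ‖cmp B w - cmp B v‖ ≤ 512 * M * (1 + ‖w‖ + ‖v‖) ^ 2 * ‖w - v‖ :=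
          norm_cmp_sub_le h0 h1 w v
      _ ≤ 512 * M * (1 + |R| + |R|) ^ 2 * ‖w - v‖ := by gcongr
      _ = 512 * (1 + |R| + |R|) ^ 2 * M * ‖w - v‖ := by ring

/-- **Newlander-Nirenberg for small integrable structures on `ℂ²`**, unconditional. -/
theorem nn {δ : ℝ} (hδ : 0 < δ) (hδ1 : δ ≤ 1) : ∃ η : ℝ, 0 < η ∧
    ∀ A : Fin 2 → Fin 2 → C2 → ℂ, (∀ i j, ContDiff ℝ 4 (A i j)) →
      (∀ i j, ∀ k : ℕ, k ≤ 4 → ∀ x, ‖iteratedFDeriv ℝ k (A i j) x‖ ≤ η) →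
      IntOn A (Metric.ball 0 3) →
      ∃ w : C2 → C2, ContDiff ℝ 1 w ∧ (∀ z, ‖z‖ ≤ 1 → ‖w z - z‖ ≤ δ) ∧
        (∀ z, ‖z‖ ≤ 1 → ‖fderiv ℝ w z - ContinuousLinearMap.id ℝ C2‖ ≤ δ) ∧
        ∀ z, ‖z‖ ≤ 1 → ∀ k j, dzb k (fun z => w z j) z =
          -∑ i, A i j (w z) * conj (dz k (fun z => w z i) z) :=
  nn_of compHyp hδ hδ1

end Vale.Agent.P267.H826
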