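import Vale.Agent.P267.H826.Wrap

/-!
# P267 / EG-NN: the chain rule in the space `H`, the algebra of the integrability condition and
the vanishing of the error `E`
-/

open Set Filter Topology
open scoped ContDiff NNReal ComplexConjugate
open Vale.Agent.P272.K.LIN Vale.Agent.P267.H515 Vale.Agent.P267.FL

noncomputable section

set_option linter.unusedSectionVars false

namespace Vale.Agent.P267.H826

/-! ### `C11` and linear maps -/

section c11

variable {V W U : Type*} [NormedAddCommGroup V] [NormedSpace ℝ V] [NormedAddCommGroup W]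
  [NormedSpace ℝ W] [NormedAddCommGroup U] [NormedSpace ℝ U] {M : ℝ} {B : V → W}

theorem C11.fderiv_clm (hB : Differentiable ℝ B) (L : W →L[ℝ] U) :
    fderiv ℝ (fun x => L (B x)) = fun x => ContinuousLinearMap.compL ℝ V W U L (fderiv ℝ B x) := by
  funext x
  have := (L.hasFDerivAt.comp x (hB x).hasFDerivAt).fderiv
  exact this

theorem C11.clm (h : C11 M B) (L : W →L[ℝ] U) (hL : ‖L‖ ≤ 1) : C11 M (fun x => L (B x)) := by
  have hM := h.nonneg
  have key : ∀ v : W, ‖L v‖ ≤ ‖v‖ := fun v =>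
    (L.le_opNorm v).trans (mul_le_of_le_one_left (norm_nonneg _) hL)
  have key2 : ∀ v : V →L[ℝ] W, ‖ContinuousLinearMap.compL ℝ V W U L v‖ ≤ ‖v‖ := fun v =>
    (ContinuousLinearMap.opNorm_comp_le L v).trans (mul_le_of_le_one_left (norm_nonneg _) hL)
  refine ⟨fun x => (L.hasFDerivAt.comp x (h.diff x).hasFDerivAt).differentiableAt,
    fun x => (key _).trans (h.bd x), fun x => ?_, fun x y => ?_⟩
  · rw [C11.fderiv_clm h.diff]
    exact (key2 _).trans (h.bd1 x)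
  · rw [C11.fderiv_clm h.diff]
    show ‖ContinuousLinearMap.compL ℝ V W U L (fderiv ℝ B x) -
      ContinuousLinearMap.compL ℝ V W U L (fderiv ℝ B y)‖ ≤ _
    rw [← map_sub]
    exact (key2 _).trans (h.lip1 x y)

theorem C11.clm_fderiv (hd : Differentiable ℝ B) (h : C11 M (fderiv ℝ B)) (L : W →L[ℝ] U)
    (hL : ‖L‖ ≤ 1) : C11 M (fderiv ℝ fun x => L (B x)) := by
  rw [C11.fderiv_clm hd]
  refine h.clm (ContinuousLinearMap.compL ℝ V W U L) ?_
  refine ContinuousLinearMap.opNorm_le_bound _ zero_le_one fun v => ?_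
  rw [one_mul]
  exact (ContinuousLinearMap.opNorm_comp_le L v).trans
    (mul_le_of_le_one_left (norm_nonneg _) hL)

/-- `B` and its first two derivatives are in the class `C11` -/
structure C31 (M : ℝ) (B : V → W) : Prop where
  c0 : C11 M B
  c1 : C11 M (fderiv ℝ B)
  c2 : C11 M (fderiv ℝ (fderiv ℝ B))

theorem C31.of_contDiff (hB : ContDiff ℝ 4 B)
    (h : ∀ j ≤ 4, ∀ x, ‖iteratedFDeriv ℝ j B x‖ ≤ M) : C31 M B := by
  refine ⟨C11.of_contDiff (hB.of_le (by norm_num)) fun j hj => h j (by omega),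
    C11.fderiv_of_contDiff (hB.of_le (by norm_num)) fun j hj => h j (by omega),
    C11.fderiv_of_contDiff (hB.fderiv_right (m := 3) (by norm_num)) fun j hj x => ?_⟩
  rw [norm_iteratedFDeriv_fderiv]
  exact h (j + 1) (by omega) x

end c11

/-! ### the Wirtinger derivatives -/

/-- the functional `L ↦ ∂L/∂z_j` -/
def dzL (j : Fin 2) : ((Fin 2 → ℂ) →L[ℝ] ℂ) →L[ℝ] ℂ :=
  (1 / 2 : ℂ) • (ContinuousLinearMap.apply ℝ ℂ (Pi.single j (1 : ℂ) : Fin 2 → ℂ) -
    Complex.I • ContinuousLinearMap.apply ℝ ℂ (Pi.single j Complex.I : Fin 2 → ℂ))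

/-- the functional `L ↦ ∂L/∂z̄_j` -/
def dzbL (j : Fin 2) : ((Fin 2 → ℂ) →L[ℝ] ℂ) →L[ℝ] ℂ :=
  (1 / 2 : ℂ) • (ContinuousLinearMap.apply ℝ ℂ (Pi.single j (1 : ℂ) : Fin 2 → ℂ) +
    Complex.I • ContinuousLinearMap.apply ℝ ℂ (Pi.single j Complex.I : Fin 2 → ℂ))

theorem dz_eq (j : Fin 2) (B : (Fin 2 → ℂ) → ℂ) (x : Fin 2 → ℂ) :
    dz j B x = dzL j (fderiv ℝ B x) := rfl

theorem dzb_eq (j : Fin 2) (B : (Fin 2 → ℂ) → ℂ) (x : Fin 2 → ℂ) :
    dzb j B x = dzbL j (fderiv ℝ B x) := rfl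

theorem norm_dz_aux (L : (Fin 2 → ℂ) →L[ℝ] ℂ) (j : Fin 2) (c : ℂ) (hc : ‖c‖ = 1) :
    ‖L (Pi.single j c)‖ ≤ ‖L‖ := by
  refine (L.le_opNorm _).trans ?_
  rw [Pi.norm_single, hc, mul_one]

theorem norm_dzL_le (j : Fin 2) : ‖dzL j‖ ≤ 1 := by
  refine ContinuousLinearMap.opNorm_le_bound _ zero_le_one fun L => ?_
  show ‖(1 / 2 : ℂ) • (L (Pi.single j 1) - Complex.I • L (Pi.single j Complex.I))‖ ≤ _
  rw [norm_smul]
  have h1 := norm_dz_aux L j 1 norm_one
  have h2 := norm_dz_aux L j Complex.I Complex.norm_I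
  have h3 : ‖L (Pi.single j 1) - Complex.I • L (Pi.single j Complex.I)‖ ≤ ‖L‖ + ‖L‖ := by
    refine (norm_sub_le _ _).trans (add_le_add h1 ?_)
    rw [norm_smul, Complex.norm_I, one_mul]
    exact h2
  have h4 : ‖(1 / 2 : ℂ)‖ = 1 / 2 := by simp
  rw [h4]
  linarith

theorem norm_dzbL_le (j : Fin 2) : ‖dzbL j‖ ≤ 1 := by
  refine ContinuousLinearMap.opNorm_le_bound _ zero_le_one fun L => ?_
  show ‖(1 / 2 : ℂ) • (L (Pi.single j 1) + Complex.I • L (Pi.single j Complex.I))‖ ≤ _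
  rw [norm_smul]
  have h1 := norm_dz_aux L j 1 norm_one
  have h2 := norm_dz_aux L j Complex.I Complex.norm_I
  have h3 : ‖L (Pi.single j 1) + Complex.I • L (Pi.single j Complex.I)‖ ≤ ‖L‖ + ‖L‖ := by
    refine (norm_add_le _ _).trans (add_le_add h1 ?_)
    rw [norm_smul, Complex.norm_I, one_mul]
    exact h2
  have h4 : ‖(1 / 2 : ℂ)‖ = 1 / 2 := by simp
  rw [h4]
  linarith

section dzC

variable {M : ℝ} {B : (Fin 2 → ℂ) → ℂ}

theorem C31.dz0 (h : C31 M B) (j : Fin 2) : C11 M (dz j B) := h.c1.clm (dzL j) (norm_dzL_le j)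
theorem C31.dzb0 (h : C31 M B) (j : Fin 2) : C11 M (dzb j B) := h.c1.clm (dzbL j) (norm_dzbL_le j)
theorem C31.dz1 (h : C31 M B) (j : Fin 2) : C11 M (fderiv ℝ (dz j B)) :=
  C11.clm_fderiv h.c1.diff h.c2 (dzL j) (norm_dzL_le j)
theorem C31.dzb1 (h : C31 M B) (j : Fin 2) : C11 M (fderiv ℝ (dzb j B)) :=
  C11.clm_fderiv h.c1.diff h.c2 (dzbL j) (norm_dzbL_le j)

end dzC

/-- a real linear map on `ℂ²` in terms of its Wirtinger coefficients -/
theorem clm_eq_dd (L : (Fin 2 → ℂ) →L[ℝ] ℂ) : L = dd (dzL 0 L) (dzbL 0 L) (dzL 1 L) (dzbL 1 L) := by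
  have h1 : ∀ j (c : ℂ), L (Pi.single j c) =
      cpl (dzL j L) (dzbL j L) c := by
    intro j c
    have h2 := clm_eq_cpl (L.comp (ContinuousLinearMap.single ℝ (fun _ : Fin 2 => ℂ) j))
    have h3 := congrArg (fun T : ℂ →L[ℝ] ℂ => T c) h2
    exact h3
  ext1 v
  have h4 : v = Pi.single 0 (v 0) + Pi.single 1 (v 1) := by
    funext i
    fin_cases i <;> simp
  conv_lhs => rw [h4]
  rw [map_add, h1, h1, dd_apply, cpl_apply, cpl_apply]

/-! ### one variable chain rule -/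

/-- chain rule for `B ∘ w` along one complex variable -/
theorem DF_chain {B : (Fin 2 → ℂ) → ℂ} (hB : Differentiable ℝ B) {w p r : Fin 2 → ℂ → ℂ}
    (h : ∀ i, DF (w i) (p i) (r i)) :
    DF (fun x => B fun i => w i x)
      (fun x => ∑ m, (dz m B (fun i => w i x) * p m x + dzb m B (fun i => w i x) * conj (r m x)))
      (fun x => ∑ m, (dz m B (fun i => w i x) * r m x + dzb m B (fun i => w i x) * conj (p m x))) := by
  intro x
  have h1 : HasFDerivAt (fun x => fun i => w i x)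
      (ContinuousLinearMap.pi fun i => cpl (p i x) (r i x)) x :=
    hasFDerivAt_pi.2 fun i => h i x
  refine ((hB _).hasFDerivAt.comp x h1).congr_fderiv ?_
  ext1 v
  set L := fderiv ℝ B (fun i => w i x) with hL
  have h2 : ∀ m, dz m B (fun i => w i x) = dzL m L := fun m => rfl
  have h3 : ∀ m, dzb m B (fun i => w i x) = dzbL m L := fun m => rfl
  rw [ContinuousLinearMap.comp_apply, clm_eq_dd L, cpl_apply]
  simp only [h2, h3, dd_apply, ContinuousLinearMap.coe_pi', cpl_apply, Fin.sum_univ_two, map_add,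
    map_mul, Complex.conj_conj]
  ring

/-- the `∂`-coefficient of `B(w)` -/
def chz (B : (Fin 2 → ℂ) → ℂ) (w p r : Fin 2 → H) : H :=
  ∑ m, (cmp (dz m B) w * p m + cmp (dzb m B) w * cj (r m))

theorem H_sum_apply {ι : Type*} (s : Finset ι) (f : ι → H) (x y : ℂ) :
    (∑ i ∈ s, f i) x y = ∑ i ∈ s, f i x y := by
  rw [Hol.sum_apply, Hol.sum_apply]

theorem D2_cmp {B : (Fin 2 → ℂ) → ℂ} {M : ℝ} (hB : C31 M B) {w p r : Fin 2 → H}
    (h : ∀ i, D2 (w i) (p i) (r i)) : D2 (cmp B w) (chz B w p r) (chz B w r p) := by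
  intro a
  have h1 := DF_chain (hB.c0.diff) (w := fun i => w i a) (p := fun i => p i a)
    (r := fun i => r i a) fun i => h i a
  have e0 : (cmp B w a : ℂ → ℂ) = fun x => B fun i => w i a x := funext fun x =>
    cmp_apply hB.c0 w a x
  have e1 : ∀ p r : Fin 2 → H, (chz B w p r a : ℂ → ℂ) = fun x =>
      ∑ m, (dz m B (fun i => w i a x) * p m a x + dzb m B (fun i => w i a x) * conj (r m a x)) := by
    intro p r
    funext x
    rw [chz, H_sum_apply]
    refine Finset.sum_congr rfl fun m _ => ?_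
    simp only [Hol.add_apply, Hol.mul_apply, cj_apply, cmp_apply (hB.dz0 m), cmp_apply (hB.dzb0 m)]
  rw [e0, e1, e1]
  exact h1

theorem D1_cmp {B : (Fin 2 → ℂ) → ℂ} {M : ℝ} (hB : C31 M B) {w p r : Fin 2 → H}
    (h : ∀ i, D1 (w i) (p i) (r i)) : D1 (cmp B w) (chz B w p r) (chz B w r p) := by
  intro a
  have h1 := DF_chain (hB.c0.diff) (w := fun i b => w i b a) (p := fun i b => p i b a)
    (r := fun i b => r i b a) fun i => h i a
  have e0 : (fun b => cmp B w b a) = fun x => B fun i => w i x a := funext fun x =>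
    cmp_apply hB.c0 w x a
  have e1 : ∀ p r : Fin 2 → H, (fun b => chz B w p r b a) = fun x =>
      ∑ m, (dz m B (fun i => w i x a) * p m x a + dzb m B (fun i => w i x a) * conj (r m x a)) := by
    intro p r
    funext x
    rw [chz, H_sum_apply]
    refine Finset.sum_congr rfl fun m _ => ?_
    simp only [Hol.add_apply, Hol.mul_apply, cj_apply, cmp_apply (hB.dz0 m), cmp_apply (hB.dzb0 m)]
  rw [e0, e1, e1]
  exact h1

/-! ### rules for `D1` and `D2` -/

section rules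

variable {f p r g q s : H}

theorem D2.add (hf : D2 f p r) (hg : D2 g q s) : D2 (f + g) (p + q) (r + s) :=
  fun a => (hf a).add (hg a)
theorem D1.add (hf : D1 f p r) (hg : D1 g q s) : D1 (f + g) (p + q) (r + s) :=
  fun a => (hf a).add (hg a)
theorem D2.sub (hf : D2 f p r) (hg : D2 g q s) : D2 (f - g) (p - q) (r - s) :=
  fun a => (hf a).sub (hg a)
theorem D1.sub (hf : D1 f p r) (hg : D1 g q s) : D1 (f - g) (p - q) (r - s) :=
  fun a => (hf a).sub (hg a)
theorem D2.neg (hf : D2 f p r) : D2 (-f) (-p) (-r) := fun a => (hf a).neg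
theorem D1.neg (hf : D1 f p r) : D1 (-f) (-p) (-r) := fun a => (hf a).neg
theorem D2.mul (hf : D2 f p r) (hg : D2 g q s) : D2 (f * g) (p * g + f * q) (r * g + f * s) :=
  fun a => (hf a).mul (hg a)
theorem D1.mul (hf : D1 f p r) (hg : D1 g q s) : D1 (f * g) (p * g + f * q) (r * g + f * s) :=
  fun a => (hf a).mul (hg a)
theorem D2.cj (hf : D2 f p r) : D2 (cj f) (cj r) (cj p) := fun a => (hf a).conj
theorem D1.cj (hf : D1 f p r) : D1 (cj f) (cj r) (cj p) := fun a => (hf a).conj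
theorem D2.zero : D2 0 0 0 := fun _ => DF.const 0
theorem D1.zero : D1 0 0 0 := fun _ => DF.const 0

theorem D2.sum {ι : Type*} (t : Finset ι) {f p r : ι → H} (h : ∀ i, D2 (f i) (p i) (r i)) :
    D2 (∑ i ∈ t, f i) (∑ i ∈ t, p i) (∑ i ∈ t, r i) := by
  classical
  induction t using Finset.induction_on with
  | empty => simpa using D2.zero
  | insert a t ha ih =>
    rw [Finset.sum_insert ha, Finset.sum_insert ha, Finset.sum_insert ha]
    exact D2.add (h a) ih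

theorem D1.sum {ι : Type*} (t : Finset ι) {f p r : ι → H} (h : ∀ i, D1 (f i) (p i) (r i)) :
    D1 (∑ i ∈ t, f i) (∑ i ∈ t, p i) (∑ i ∈ t, r i) := by
  classical
  induction t using Finset.induction_on with
  | empty => simpa using D1.zero
  | insert a t ha ih =>
    rw [Finset.sum_insert ha, Finset.sum_insert ha, Finset.sum_insert ha]
    exact D1.add (h a) ih

end rules

/-! ### the algebra of the integrability condition -/

/-- pointwise identity: `a i j = A_ij`, `az m i j = ∂_m A_ij`, `ab m i j = ∂̄_m A_ij` at one point -/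
theorem compat_algebra {a : Fin 2 → Fin 2 → ℂ} {az ab : Fin 2 → Fin 2 → Fin 2 → ℂ}
    (hint : ∀ j, ab 0 1 j - ∑ l, a 0 l * az l 1 j = ab 1 0 j - ∑ l, a 1 l * az l 0 j)
    {p1 p2 r1 r2 E : Fin 2 → ℂ} (hr1 : ∀ j, r1 j = - ∑ i, a i j * conj (p1 i))
    (hE : ∀ j, E j = r2 j + ∑ i, a i j * conj (p2 i)) (j : Fin 2) :
    (- ∑ i, (∑ m, (az m i j * r2 m + ab m i j * conj (p2 m))) * conj (p1 i)) -
      (- ∑ i, (∑ m, (az m i j * r1 m + ab m i j * conj (p1 m))) * conj (p2 i)) =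
      - ∑ i, ∑ m, az m i j * E m * conj (p1 i) := by
  have h := hint j
  have e0 : r2 0 = E 0 - ∑ i, a i 0 * conj (p2 i) := by rw [hE 0]; ring
  have e1 : r2 1 = E 1 - ∑ i, a i 1 * conj (p2 i) := by rw [hE 1]; ring
  simp only [Fin.sum_univ_two] at h e0 e1 hr1 ⊢
  rw [e0, e1, hr1 0, hr1 1]
  linear_combination (conj (p2 1) * conj (p1 0) - conj (p2 0) * conj (p1 1)) * h

/-- **vanishing of the error** -/
theorem error_zero {E F : Fin 2 → H} {κ : ℝ} (hκ : 0 ≤ κ) (hκ1 : tC * (2 * κ) ≤ 1 / 2)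
    (h1 : ∀ j x y, ‖x‖ ≤ 1 → ‖y‖ ≤ 1 → E j x y = V1 T (F j) x y)
    (h2 : ∀ j x y, ‖x‖ ≤ 1 → ‖y‖ ≤ 1 → ‖F j x y‖ ≤ κ * ∑ m, ‖E m x y‖)
    (j : Fin 2) {x y : ℂ} (hx : ‖x‖ ≤ 1) (hy : ‖y‖ ≤ 1) : E j x y = 0 := by
  have hB : ∃ B : ℝ, 0 ≤ B ∧ ∀ j x y, ‖E j x y‖ ≤ B :=
    ⟨‖E‖, norm_nonneg _, fun j x y => (hh_apply_le (E j) x y).trans (norm_le_pi_norm E j)⟩
  obtain ⟨B, hB0, hB⟩ := hB
  have hn : ∀ n : ℕ, ∀ j x y, ‖x‖ ≤ 1 → ‖y‖ ≤ 1 → ‖E j x y‖ ≤ B * (1 / 2) ^ n := by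
    intro n
    induction n with
    | zero => intro j x y _ _; simpa using hB j x y
    | succ n ih =>
      intro j x y hx hy
      rw [h1 j x y hx hy, V1_apply]
      have h3 : ∀ x', ‖x'‖ ≤ 1 → ‖swap (F j) y x'‖ ≤ κ * (2 * (B * (1 / 2) ^ n)) := by
        intro x' hx'
        rw [swap_apply]
        refine (h2 j x' y hx' hy).trans (mul_le_mul_of_nonneg_left ?_ hκ)
        rw [Fin.sum_univ_two]
        linarith [ih 0 x' y hx' hy, ih 1 x' y hx' hy]
      refine (T_sup _ h3 x).trans ?_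
      have h4 : 0 ≤ B * (1 / 2) ^ n := by positivity
      calc tC * (κ * (2 * (B * (1 / 2) ^ n))) = (tC * (2 * κ)) * (B * (1 / 2) ^ n) := by ring
        _ ≤ 1 / 2 * (B * (1 / 2) ^ n) := mul_le_mul_of_nonneg_right hκ1 h4
        _ = B * (1 / 2) ^ (n + 1) := by ring
  have h5 : Tendsto (fun n : ℕ => B * (1 / 2 : ℝ) ^ n) atTop (𝓝 0) := by
    have := (tendsto_pow_atTop_nhds_zero_of_lt_one (by norm_num : (0 : ℝ) ≤ 1 / 2)
      (by norm_num)).const_mul B
    simpa using this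
  have h6 : ‖E j x y‖ ≤ 0 := ge_of_tendsto h5 (Eventually.of_forall fun n => hn n j x y hx hy)
  exact norm_le_zero_iff.1 h6

end Vale.Agent.P267.H826
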