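import Vale.Agent.P267.H181.Loc
import Vale.Agent.P267.H378.Mont
import Vale.Agent.P268.Hol

/-!
# P267 / ROUTE S, (S1)(a) (helper826): the `∂̄`-equation on `G × disc`

`strip`: `∂̄φ = α` for a closed bounded smooth `(0,1)`-form on `G × {|x| < e}` (`G ⊂ ℂ` open and
bounded) is solved on `int K × {|x| < e}` (`K ⊂ G` compact) with `|φ| ≤ C sup|α|`: there is no
shrinking in the second variable and `C` depends only on `G`, `K` and an upper bound of `e`.
`ring` is the special case of two rings.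
-/

open Filter Topology MeasureTheory Set Metric
open scoped ContDiff Real ComplexConjugate Manifold

noncomputable section

namespace Vale.Agent.P267.H826.Ring

open FL H439 H181

/-- the function `θ(z_0)` -/
def Th (θ : ℂ → ℝ) (z : C2) : ℂ := ((θ (z 0) : ℝ) : ℂ)

/-- the function `χ(z_1)` -/
def Xi (χ : ContDiffBump (0 : ℂ)) (z : C2) : ℂ := ((χ (z 1) : ℝ) : ℂ)

/-- the domain -/
def Om (G : Set ℂ) (e : ℝ) : Set C2 := {z | z 0 ∈ G ∧ ‖z 1‖ < e}

theorem isOpen_Om {G : Set ℂ} (hG : IsOpen G) (e : ℝ) : IsOpen (Om G e) :=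
  (hG.preimage (continuous_apply 0)).inter
    (isOpen_lt (continuous_apply 1).norm continuous_const)

theorem contDiff_Th {θ : ℂ → ℝ} (hθ : ContDiff ℝ ∞ θ) : ContDiff ℝ ∞ (Th θ) :=
  Complex.ofRealCLM.contDiff.comp (hθ.comp (contDiff_apply ℝ ℂ 0))

theorem contDiff_Xi (χ : ContDiffBump (0 : ℂ)) : ContDiff ℝ ∞ (Xi χ) :=
  Complex.ofRealCLM.contDiff.comp (χ.contDiff.comp (contDiff_apply ℝ ℂ 1))

theorem continuous_norm1 : Continuous fun y : C2 => ‖y 1‖ := (continuous_apply 1).norm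

theorem norm_Xi_le (χ : ContDiffBump (0 : ℂ)) (z : C2) : ‖Xi χ z‖ ≤ 1 := by
  unfold Xi
  rw [Complex.norm_real, Real.norm_eq_abs, abs_of_nonneg χ.nonneg]
  exact χ.le_one

theorem Xi_eq_zero {χ : ContDiffBump (0 : ℂ)} {z : C2} (h : χ.rOut ≤ ‖z 1‖) : Xi χ z = 0 := by
  have : χ (z 1) = 0 := χ.zero_of_le_dist (by rwa [dist_zero_right])
  simp [Xi, this]

theorem Xi_eq_one {χ : ContDiffBump (0 : ℂ)} {z : C2} (h : ‖z 1‖ ≤ χ.rIn) : Xi χ z = 1 := by
  have : χ (z 1) = 1 := χ.one_of_mem_closedBall (by rw [mem_closedBall, dist_zero_right]; exact h)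
  simp [Xi, this]

/-- a function of `z_i` only has no derivative in the other direction -/
theorem dzb_other {F : ℂ → ℂ} {i j : Fin 2} (hij : i ≠ j) {z : C2} (hF : DifferentiableAt ℝ F (z i)) :
    dzb j (fun y : C2 => F (y i)) z = 0 := by
  have h2 : HasFDerivAt (fun y : C2 => y i)
      (ContinuousLinearMap.proj (R := ℝ) (φ := fun _ : Fin 2 => ℂ) i) z :=
    (ContinuousLinearMap.proj (R := ℝ) (φ := fun _ : Fin 2 => ℂ) i).hasFDerivAt
  have h3 := hF.hasFDerivAt.comp z h2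
  have h4 : fderiv ℝ (fun y : C2 => F (y i)) z = _ := h3.fderiv
  unfold FL.dzb
  rw [h4]
  simp [Pi.single_eq_of_ne hij]

/-- the derivative of a function of `z_i` depends only on `z_i` -/
theorem dzb_self {F : ℂ → ℂ} {i : Fin 2} {z w : C2} (hzw : z i = w i)
    (hF : DifferentiableAt ℝ F (z i)) :
    dzb i (fun y : C2 => F (y i)) z = dzb i (fun y : C2 => F (y i)) w := by
  have h2 : ∀ z : C2, HasFDerivAt (fun y : C2 => y i)
      (ContinuousLinearMap.proj (R := ℝ) (φ := fun _ : Fin 2 => ℂ) i) z := fun z =>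
    (ContinuousLinearMap.proj (R := ℝ) (φ := fun _ : Fin 2 => ℂ) i).hasFDerivAt
  have h3 := hF.hasFDerivAt.comp z (h2 z)
  have h4 : fderiv ℝ (fun y : C2 => F (y i)) z = _ := h3.fderiv
  have hF' : DifferentiableAt ℝ F (w i) := hzw ▸ hF
  have h3' := hF'.hasFDerivAt.comp w (h2 w)
  have h4' : fderiv ℝ (fun y : C2 => F (y i)) w = _ := h3'.fderiv
  unfold FL.dzb
  rw [h4, h4', hzw]

/-- extension by zero -/
theorem contDiff_mul_zero {Ω : Set C2} (hΩ : IsOpen Ω) {f ψ : C2 → ℂ} (hf : ContDiffOn ℝ ∞ f Ω)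
    (hψ : ContDiff ℝ ∞ ψ) (h0 : ∀ z, z ∉ Ω → ψ =ᶠ[𝓝 z] fun _ => 0) :
    ContDiff ℝ ∞ fun z => ψ z * f z := by
  rw [contDiff_iff_contDiffAt]
  intro z
  by_cases hz : z ∈ Ω
  · exact hψ.contDiffAt.mul (hf.contDiffAt (hΩ.mem_nhds hz))
  · refine (contDiffAt_const (c := (0 : ℂ))).congr_of_eventuallyEq ?_
    filter_upwards [h0 z hz] with y hy
    rw [hy, zero_mul]

/-- the cut-off data: `θ = 0` near the complement of `G ⊆ closedBall 0 ρ` -/
structure Cd (G : Set ℂ) (ρ : ℝ) (θ : ℂ → ℝ) : Prop where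
  isOpen : IsOpen G
  smooth : ContDiff ℝ ∞ θ
  zero : ∀ t, t ∉ G → θ =ᶠ[𝓝 t] fun _ => 0
  sub : G ⊆ closedBall 0 ρ

namespace Cd

variable {G : Set ℂ} {ρ : ℝ} {θ : ℂ → ℝ}

theorem Th_zero (h : Cd G ρ θ) {z : C2} (hz : z 0 ∉ G) : Th θ =ᶠ[𝓝 z] fun _ => 0 := by
  have h1 : Tendsto (fun y : C2 => y 0) (𝓝 z) (𝓝 (z 0)) := (continuous_apply 0).continuousAt
  filter_upwards [h1.eventually (h.zero _ hz)] with y hy
  simp [Th, hy]

theorem dTh_zero (h : Cd G ρ θ) {z : C2} (hz : z 0 ∉ G) (j : Fin 2) :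
    dzb j (Th θ) =ᶠ[𝓝 z] fun _ => 0 := by
  filter_upwards [(h.Th_zero hz).eventuallyEq_nhds] with y hy
  rw [dzb_congr hy, FL.dzb_const]

theorem suppTh (h : Cd G ρ θ) : SuppIn 0 ρ (Th θ) := fun _ hz =>
  (h.Th_zero fun hG => absurd (mem_closedBall_zero_iff.1 (h.sub hG)) (not_le.2 hz)).self_of_nhds

theorem suppdTh (h : Cd G ρ θ) : SuppIn 0 ρ (dzb 0 (Th θ)) := h.suppTh.dzb 0

theorem contDiff_dTh (h : Cd G ρ θ) : ContDiff ℝ ∞ (dzb 0 (Th θ)) :=
  contDiff_dzb (contDiff_Th h.smooth) 0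

theorem exists_bound (h : Cd G ρ θ) : ∃ B, 0 ≤ B ∧ ∀ z, ‖dzb 0 (Th θ) z‖ ≤ B := by
  have hc : Continuous fun t : ℂ => dzb 0 (Th θ) ![t, 0] :=
    h.contDiff_dTh.continuous.comp (by fun_prop)
  have hs : HasCompactSupport fun t : ℂ => dzb 0 (Th θ) ![t, 0] := by
    refine HasCompactSupport.intro (K := closedBall 0 ρ) (isCompact_closedBall _ _) ?_
    intro t ht
    refine h.suppdTh _ ?_
    simpa using ht
  obtain ⟨B, hB⟩ := hc.bounded_above_of_compact_support hs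
  refine ⟨B, (norm_nonneg _).trans (hB 0), fun z => ?_⟩
  have h1 : dzb 0 (Th θ) z = dzb 0 (Th θ) ![z 0, 0] := by
    refine dzb_self (F := fun t => ((θ t : ℝ) : ℂ)) (by simp) ?_
    exact (Complex.ofRealCLM.contDiff.comp h.smooth : ContDiff ℝ ∞ fun t => ((θ t : ℝ) : ℂ)).differentiable
      (by simp) _
  rw [h1]
  exact hB _

end Cd

section step

variable {G : Set ℂ} {ρ e : ℝ} {θ : ℂ → ℝ} (α : C2 → Fin 2 → ℂ) (χ : ContDiffBump (0 : ℂ))

/-- cut off coefficient -/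
def gg (θ : ℂ → ℝ) (i : Fin 2) (z : C2) : ℂ := (Th θ z * Xi χ z) * α z i

/-- the error coefficient -/
def hh (θ : ℂ → ℝ) (z : C2) : ℂ := (dzb 0 (Th θ) z * Xi χ z) * α z 1

/-- its transform -/
def bt (θ : ℂ → ℝ) : C2 → ℂ := T 0 (hh α χ θ)

/-- the first part of the solution -/
def vv (θ : ℂ → ℝ) : C2 → ℂ := T 0 (gg α χ θ 0)

/-- the second part of the solution -/
def ww (θ : ℂ → ℝ) : C2 → ℂ := T 1 (bt α χ θ)

variable {α χ}

theorem contDiff_gg (h : Cd G ρ θ) (hα : ∀ i, ContDiffOn ℝ ∞ (fun z => α z i) (Om G e))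
    (hχ : χ.rOut < e) (i : Fin 2) : ContDiff ℝ ∞ (gg α χ θ i) := by
  refine contDiff_mul_zero (isOpen_Om h.isOpen e) (hα i)
    ((contDiff_Th h.smooth).mul (contDiff_Xi χ)) fun z hz => ?_
  by_cases h0 : z 0 ∈ G
  · have h1 : χ.rOut < ‖z 1‖ := hχ.trans_le (not_lt.1 fun h1 => hz ⟨h0, h1⟩)
    filter_upwards [continuous_norm1.continuousAt.eventually (isOpen_Ioi.mem_nhds h1)]
      with y hy
    rw [Xi_eq_zero (le_of_lt hy), mul_zero]
  · filter_upwards [h.Th_zero h0] with y hy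
    rw [hy, zero_mul]

theorem contDiff_hh (h : Cd G ρ θ) (hα : ∀ i, ContDiffOn ℝ ∞ (fun z => α z i) (Om G e))
    (hχ : χ.rOut < e) : ContDiff ℝ ∞ (hh α χ θ) := by
  refine contDiff_mul_zero (isOpen_Om h.isOpen e) (hα 1)
    (h.contDiff_dTh.mul (contDiff_Xi χ)) fun z hz => ?_
  by_cases h0 : z 0 ∈ G
  · have h1 : χ.rOut < ‖z 1‖ := hχ.trans_le (not_lt.1 fun h1 => hz ⟨h0, h1⟩)
    filter_upwards [continuous_norm1.continuousAt.eventually (isOpen_Ioi.mem_nhds h1)]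
      with y hy
    rw [Xi_eq_zero (le_of_lt hy), mul_zero]
  · filter_upwards [h.dTh_zero h0 0] with y hy
    rw [hy, zero_mul]

theorem supp_gg0 (h : Cd G ρ θ) (i : Fin 2) : SuppIn 0 ρ (gg α χ θ i) := fun z hz => by
  unfold gg
  rw [h.suppTh z hz, zero_mul, zero_mul]

theorem supp_gg1 (i : Fin 2) : SuppIn 1 χ.rOut (gg α χ θ i) := fun z hz => by
  unfold gg
  rw [Xi_eq_zero (le_of_lt hz), mul_zero, zero_mul]

theorem supp_hh0 (h : Cd G ρ θ) : SuppIn 0 ρ (hh α χ θ) := fun z hz => by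
  unfold hh
  rw [h.suppdTh z hz, zero_mul, zero_mul]

theorem supp_bt : SuppIn 1 χ.rOut (bt α χ θ) := fun z hz => by
  refine T_eq_zero fun w hw => ?_
  have hw' : w 1 = z 1 := by simpa using hw
  unfold hh
  rw [Xi_eq_zero (by rw [hw']; exact le_of_lt hz), mul_zero, zero_mul]

theorem contDiff_bt (h : Cd G ρ θ) (hα : ∀ i, ContDiffOn ℝ ∞ (fun z => α z i) (Om G e))
    (hχ : χ.rOut < e) : ContDiff ℝ ∞ (bt α χ θ) :=
  T_contDiff (contDiff_hh h hα hχ) (supp_hh0 h)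

theorem contDiff_vv (h : Cd G ρ θ) (hα : ∀ i, ContDiffOn ℝ ∞ (fun z => α z i) (Om G e))
    (hχ : χ.rOut < e) : ContDiff ℝ ∞ (vv α χ θ) :=
  T_contDiff (contDiff_gg h hα hχ 0) (supp_gg0 h 0)

theorem contDiff_ww (h : Cd G ρ θ) (hα : ∀ i, ContDiffOn ℝ ∞ (fun z => α z i) (Om G e))
    (hχ : χ.rOut < e) : ContDiff ℝ ∞ (ww α χ θ) :=
  T_contDiff (contDiff_bt h hα hχ) supp_bt

theorem dzb0_vv (h : Cd G ρ θ) (hα : ∀ i, ContDiffOn ℝ ∞ (fun z => α z i) (Om G e))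
    (hχ : χ.rOut < e) (z : C2) : dzb 0 (vv α χ θ) z = gg α χ θ 0 z :=
  dzb_T_self (contDiff_gg h hα hχ 0) (supp_gg0 h 0) z

theorem dzb0_bt (h : Cd G ρ θ) (hα : ∀ i, ContDiffOn ℝ ∞ (fun z => α z i) (Om G e))
    (hχ : χ.rOut < e) (z : C2) : dzb 0 (bt α χ θ) z = hh α χ θ z :=
  dzb_T_self (contDiff_hh h hα hχ) (supp_hh0 h) z

theorem dzb1_ww (h : Cd G ρ θ) (hα : ∀ i, ContDiffOn ℝ ∞ (fun z => α z i) (Om G e))
    (hχ : χ.rOut < e) (z : C2) : dzb 1 (ww α χ θ) z = bt α χ θ z :=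
  dzb_T_self (contDiff_bt h hα hχ) supp_bt z

theorem dzb0_ww (h : Cd G ρ θ) (hα : ∀ i, ContDiffOn ℝ ∞ (fun z => α z i) (Om G e))
    (hχ : χ.rOut < e) {z : C2} (hz : θ =ᶠ[𝓝 (z 0)] fun _ => 1) : dzb 0 (ww α χ θ) z = 0 := by
  unfold ww
  rw [dzb_T (contDiff_bt h hα hχ) supp_bt]
  refine T_eq_zero fun w hw => ?_
  have hw' : w 0 = z 0 := by simpa using hw
  rw [dzb0_bt h hα hχ]
  have h1 : Th θ =ᶠ[𝓝 w] fun _ => 1 := by
    have h1 : Tendsto (fun y : C2 => y 0) (𝓝 w) (𝓝 (z 0)) := by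
      rw [← hw']; exact (continuous_apply 0).continuousAt
    filter_upwards [h1.eventually hz] with y hy
    simp [Th, hy]
  unfold hh
  rw [dzb_congr h1, FL.dzb_const, zero_mul, zero_mul]

theorem dzb1_vv (h : Cd G ρ θ) (hα : ∀ i, ContDiffOn ℝ ∞ (fun z => α z i) (Om G e))
    (hcl : ∀ z ∈ Om G e, dzb 0 (fun w => α w 1) z = dzb 1 (fun w => α w 0) z)
    (hχ : χ.rOut < e) {z : C2} (hz : ‖z 1‖ < χ.rIn) :
    dzb 1 (vv α χ θ) z = gg α χ θ 1 z - bt α χ θ z := by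
  have key : ∀ w : C2, w (1 - 0) = z (1 - 0) → dzb 1 (gg α χ θ 0) w =
      dzb 0 (gg α χ θ 1) w - hh α χ θ w := by
    intro w hw
    have hw' : w 1 = z 1 := by simpa using hw
    have hw1 : ‖w 1‖ < χ.rIn := by rw [hw']; exact hz
    by_cases hw0 : w 0 ∈ G
    · have hwO : w ∈ Om G e := ⟨hw0, hw1.trans (χ.rIn_lt_rOut.trans hχ)⟩
      have hd : ∀ i, DifferentiableAt ℝ (fun z => α z i) w := fun i =>
        ((hα i).contDiffAt ((isOpen_Om h.isOpen e).mem_nhds hwO)).differentiableAt (by simp)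
      have hTd := (contDiff_Th h.smooth).differentiable (by simp) w
      have hXd := (contDiff_Xi χ).differentiable (by simp) w
      have hev : Xi χ =ᶠ[𝓝 w] fun _ => 1 := by
        filter_upwards [continuous_norm1.continuousAt.eventually
          (isOpen_Iio.mem_nhds hw1)] with y hy
        exact Xi_eq_one (le_of_lt hy)
      have hX : ∀ j, dzb j (Xi χ) w = 0 := fun j => by rw [dzb_congr hev, FL.dzb_const]
      have hT : dzb 1 (Th θ) w = 0 := by
        refine dzb_other (F := fun t => ((θ t : ℝ) : ℂ)) (by decide) ?_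
        exact (Complex.ofRealCLM.contDiff.comp h.smooth :
          ContDiff ℝ ∞ fun t => ((θ t : ℝ) : ℂ)).differentiable (by simp) _
      have e1 : dzb 1 (gg α χ θ 0) w = _ := dzb_mul' (hTd.mul hXd) (hd 0) 1
      have e2 : dzb 0 (gg α χ θ 1) w = _ := dzb_mul' (hTd.mul hXd) (hd 1) 0
      have e3 : dzb 1 (fun y => Th θ y * Xi χ y) w = _ := dzb_mul' hTd hXd 1
      have e4 : dzb 0 (fun y => Th θ y * Xi χ y) w = _ := dzb_mul' hTd hXd 0
      have e5 : dzb 1 (Th θ * Xi χ) w = dzb 1 (fun y => Th θ y * Xi χ y) w := rfl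
      have e6 : dzb 0 (Th θ * Xi χ) w = dzb 0 (fun y => Th θ y * Xi χ y) w := rfl
      rw [e1, e2]
      simp only [hcl w hwO]
      unfold hh
      first
        | rw [e3, e4, hX, hX, hT]
        | rw [e5, e6, e3, e4, hX, hX, hT]
      simp only [Pi.mul_apply]
      ring
    · have h1 : gg α χ θ 0 =ᶠ[𝓝 w] fun _ => 0 := by
        filter_upwards [h.Th_zero hw0] with y hy
        unfold gg
        rw [hy, zero_mul, zero_mul]
      have h2 : gg α χ θ 1 =ᶠ[𝓝 w] fun _ => 0 := by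
        filter_upwards [h.Th_zero hw0] with y hy
        unfold gg
        rw [hy, zero_mul, zero_mul]
      rw [dzb_congr h1, dzb_congr h2, FL.dzb_const, FL.dzb_const]
      unfold hh
      rw [(h.dTh_zero hw0 0).self_of_nhds]
      simp
  unfold vv
  rw [dzb_T (contDiff_gg h hα hχ 0) (supp_gg0 h 0), T_congr key,
    T_sub (contDiff_dzb (contDiff_gg h hα hχ 1) 0).continuous ((supp_gg0 h 1).dzb 0)
      (contDiff_hh h hα hχ).continuous (supp_hh0 h),
    ← dzb_T (contDiff_gg h hα hχ 1) (supp_gg0 h 1), dzb_T_self (contDiff_gg h hα hχ 1) (supp_gg0 h 1)]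
  rfl

end step

/-! ### the limit -/

/-- the mass of the kernel on thin rings is uniformly small -/
theorem small_ring {e : ℝ} {η : ℕ → ℝ} (hη : Tendsto η atTop (𝓝 e)) {ε : ℝ}
    (hε : 0 < ε) : ∃ N, ∀ n ≥ N, ∀ x : ℂ, ‖x‖ < e →
      ∫ t in {t : ℂ | η n ≤ ‖x - t‖ ∧ ‖x - t‖ < e}, ‖ker1 t‖ < ε := by
  have hI : IntegrableOn ker1 (closedBall (0 : ℂ) (2 * e)) :=
    locallyIntegrable_ker1.integrableOn_isCompact (isCompact_closedBall 0 _)
  obtain ⟨δ, hδ, h⟩ := exists_pos_setLIntegral_lt_of_measure_lt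
    (μ := volume.restrict (closedBall (0 : ℂ) (2 * e))) (f := fun t => ‖ker1 t‖ₑ) hI.2.ne
    (ε := ENNReal.ofReal ε) (by simpa using hε)
  have hlim : Tendsto (fun n => ENNReal.ofReal e ^ 2 * (NNReal.pi : ENNReal) -
      ENNReal.ofReal (η n) ^ 2 * (NNReal.pi : ENNReal)) atTop (𝓝 0) := by
    have h1 : Tendsto (fun n => ENNReal.ofReal (η n) ^ 2 * (NNReal.pi : ENNReal)) atTop
        (𝓝 (ENNReal.ofReal e ^ 2 * (NNReal.pi : ENNReal))) :=
      ENNReal.Tendsto.mul_const (ENNReal.Tendsto.pow (ENNReal.tendsto_ofReal hη)) (by simp)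
    have h2 := ENNReal.Tendsto.sub (tendsto_const_nhds
      (x := ENNReal.ofReal e ^ 2 * (NNReal.pi : ENNReal)) (f := (atTop : Filter ℕ))) h1
      (Or.inl (ENNReal.mul_ne_top (by simp) (by simp)))
    rwa [tsub_self] at h2
  obtain ⟨N, hN⟩ := eventually_atTop.1 (hlim.eventually (gt_mem_nhds hδ))
  refine ⟨N, fun n hn x hx => ?_⟩
  set S : Set ℂ := {t : ℂ | η n ≤ ‖x - t‖ ∧ ‖x - t‖ < e} with hS
  have hSsub : S ⊆ closedBall (0 : ℂ) (2 * e) := by
    rintro t ⟨_, ht⟩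
    rw [mem_closedBall_zero_iff]
    have := norm_sub_norm_le t x
    rw [norm_sub_rev] at this
    linarith
  have hSeq : S = ball x e \ ball x (η n) := by
    ext t
    simp only [hS, mem_ofPred_eq, Set.mem_sdiff, mem_ball, dist_eq_norm, not_lt, norm_sub_rev t x]
    tauto
  have hSm : MeasurableSet S := by
    rw [hSeq]; exact measurableSet_ball.diff measurableSet_ball
  have hSv : volume S ≤ ENNReal.ofReal e ^ 2 * (NNReal.pi : ENNReal) -
      ENNReal.ofReal (η n) ^ 2 * (NNReal.pi : ENNReal) := by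
    rcases le_total (η n) e with hne | hne
    · rw [hSeq, measure_sdiff (ball_subset_ball hne) measurableSet_ball.nullMeasurableSet
        (by simp [Complex.volume_ball, ENNReal.mul_eq_top]), Complex.volume_ball,
        Complex.volume_ball]
    · rw [hSeq, sdiff_eq_empty.2 (ball_subset_ball hne), measure_empty]
      exact zero_le
  have h1 : (volume.restrict (closedBall (0 : ℂ) (2 * e))) S < δ :=
    ((Measure.restrict_apply_le _ _).trans hSv).trans_lt (hN n hn)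
  have h2 := h S h1
  rw [Measure.restrict_restrict hSm, inter_eq_self_of_subset_left hSsub] at h2
  rw [integral_norm_eq_lintegral_enorm
    (locallyIntegrable_ker1.aestronglyMeasurable.mono_measure Measure.restrict_le_self)]
  exact (ENNReal.toReal_lt_of_lt_ofReal h2)

/-- the radii -/
def eta (e : ℝ) (n : ℕ) : ℝ := e * ((n + 1) / (n + 2))

theorem eta_pos {e : ℝ} (he : 0 < e) (n : ℕ) : 0 < eta e n := by unfold eta; positivity

theorem eta_lt_succ {e : ℝ} (he : 0 < e) (n : ℕ) : eta e n < eta e (n + 1) := by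
  unfold eta
  refine mul_lt_mul_of_pos_left ?_ he
  rw [div_lt_div_iff₀ (by positivity) (by positivity)]
  push_cast
  nlinarith

theorem eta_lt {e : ℝ} (he : 0 < e) (n : ℕ) : eta e n < e := by
  unfold eta
  conv_rhs => rw [← mul_one e]
  refine mul_lt_mul_of_pos_left ?_ he
  rw [div_lt_one (by positivity)]
  linarith

theorem eta_mono {e : ℝ} (he : 0 < e) : Monotone (eta e) :=
  monotone_nat_of_le_succ fun n => (eta_lt_succ he n).le

theorem tendsto_eta (e : ℝ) : Tendsto (eta e) atTop (𝓝 e) := by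
  have h1 : Tendsto (fun n : ℕ => e * (1 - 1 / ((n : ℝ) + 2))) atTop (𝓝 (e * (1 - 0))) := by
    refine (tendsto_const_nhds.sub ?_).const_mul e
    have := (tendsto_one_div_add_atTop_nhds_zero_nat (𝕜 := ℝ)).comp (tendsto_add_atTop_nat 1)
    refine this.congr fun n => ?_
    simp only [Function.comp]
    push_cast
    ring
  rw [sub_zero, mul_one] at h1
  refine h1.congr fun n => ?_
  unfold eta
  field_simp
  ring

/-- the cut-offs in `z_1` -/
def bp {e : ℝ} (he : 0 < e) (n : ℕ) : ContDiffBump (0 : ℂ) :=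
  bmp (eta_pos he n) (eta_lt_succ he n)

theorem bp_rIn {e : ℝ} (he : 0 < e) (n : ℕ) : (bp he n).rIn = eta e n := rfl

theorem bp_rOut {e : ℝ} (he : 0 < e) (n : ℕ) : (bp he n).rOut = eta e (n + 1) := rfl

section lim

variable {G : Set ℂ} {ρ e : ℝ} {θ : ℂ → ℝ} {α : C2 → Fin 2 → ℂ}

/-- the first part -/
def v0 (α : C2 → Fin 2 → ℂ) (θ : ℂ → ℝ) : C2 → ℂ := T 0 fun y => Th θ y * α y 0

/-- the error -/
def b0 (α : C2 → Fin 2 → ℂ) (θ : ℂ → ℝ) : C2 → ℂ := T 0 fun y => dzb 0 (Th θ) y * α y 1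

theorem vv_eq (χ : ContDiffBump (0 : ℂ)) {z : C2} (hz : ‖z 1‖ ≤ χ.rIn) :
    vv α χ θ z = v0 α θ z := by
  refine T_congr fun w hw => ?_
  have hw' : w 1 = z 1 := by simpa using hw
  unfold gg
  rw [Xi_eq_one (by rw [hw']; exact hz), mul_one]

theorem bt_eq (χ : ContDiffBump (0 : ℂ)) (z : C2) : bt α χ θ z = Xi χ z * b0 α θ z := by
  unfold bt b0
  rw [T_eq, T_eq, ← integral_const_mul]
  congr 1
  funext t
  have : Xi χ (z - Pi.single 0 t) = Xi χ z := by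
    unfold Xi
    simp
  unfold hh
  rw [this]
  ring

theorem norm_Th_le (h01 : ∀ t, θ t ∈ Icc (0 : ℝ) 1) (z : C2) : ‖Th θ z‖ ≤ 1 := by
  unfold Th
  rw [Complex.norm_real, Real.norm_eq_abs, abs_of_nonneg (h01 _).1]
  exact (h01 _).2

theorem norm_v0_le (h : Cd G ρ θ) (h01 : ∀ t, θ t ∈ Icc (0 : ℝ) 1) {A : ℝ} (hA : 0 ≤ A)
    (hb : ∀ z ∈ Om G e, ∀ i, ‖α z i‖ ≤ A) {z : C2} (hz0 : ‖z 0‖ ≤ ρ) (hz1 : ‖z 1‖ < e) :
    ‖v0 α θ z‖ ≤ mass (2 * ρ) * A := by
  refine norm_T_le (h.suppTh.mul _) hz0 hA fun w hw _ => ?_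
  have hw' : w 1 = z 1 := by simpa using hw
  by_cases hw0 : w 0 ∈ G
  · rw [norm_mul]
    calc ‖Th θ w‖ * ‖α w 0‖ ≤ 1 * A := by
          gcongr
          · exact norm_Th_le h01 w
          · exact hb w ⟨hw0, by rw [hw']; exact hz1⟩ 0
      _ = A := one_mul A
  · rw [(h.Th_zero hw0).self_of_nhds]
    simpa using hA

theorem norm_b0_le (h : Cd G ρ θ) {A B : ℝ} (hA : 0 ≤ A) (hB : 0 ≤ B)
    (hBθ : ∀ z, ‖dzb 0 (Th θ) z‖ ≤ B)
    (hb : ∀ z ∈ Om G e, ∀ i, ‖α z i‖ ≤ A) {z : C2} (hz0 : ‖z 0‖ ≤ ρ) (hz1 : ‖z 1‖ < e) :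
    ‖b0 α θ z‖ ≤ mass (2 * ρ) * (B * A) := by
  refine norm_T_le (h.suppdTh.mul _) hz0 (by positivity) fun w hw _ => ?_
  have hw' : w 1 = z 1 := by simpa using hw
  by_cases hw0 : w 0 ∈ G
  · rw [norm_mul]
    gcongr
    · exact hBθ w
    · exact hb w ⟨hw0, by rw [hw']; exact hz1⟩ 1
  · rw [(h.dTh_zero hw0 0).self_of_nhds]
    simpa using mul_nonneg hB hA

theorem norm_ww_le (h : Cd G ρ θ) {A B : ℝ} (hA : 0 ≤ A) (hB : 0 ≤ B)
    (hBθ : ∀ z, ‖dzb 0 (Th θ) z‖ ≤ B)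
    (hb : ∀ z ∈ Om G e, ∀ i, ‖α z i‖ ≤ A) (he : 0 < e) {E : ℝ} (hE : e ≤ E) (n : ℕ) {z : C2}
    (hz0 : ‖z 0‖ ≤ ρ) (hz1 : ‖z 1‖ < e) :
    ‖ww α (bp he n) θ z‖ ≤ mass (2 * E) * (mass (2 * ρ) * (B * A)) := by
  have hm := mass_nonneg (2 * ρ)
  have hs : SuppIn 1 E (bt α (bp he n) θ) := fun w hw => supp_bt w (by
    rw [bp_rOut]
    exact ((eta_lt he (n + 1)).le.trans hE).trans_lt hw)
  refine norm_T_le hs (hz1.le.trans hE) (by positivity) fun w hw _ => ?_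
  have hw' : w 0 = z 0 := by simpa using hw
  by_cases hw1 : ‖w 1‖ < e
  · rw [bt_eq, norm_mul]
    calc ‖Xi (bp he n) w‖ * ‖b0 α θ w‖ ≤ 1 * (mass (2 * ρ) * (B * A)) := by
          gcongr
          · exact norm_Xi_le _ w
          · exact norm_b0_le h hA hB hBθ hb (by rw [hw']; exact hz0) hw1
      _ = _ := one_mul _
  · rw [bt_eq, Xi_eq_zero (by
      rw [bp_rOut]
      exact (eta_lt he (n + 1)).le.trans (not_lt.1 hw1)), zero_mul, norm_zero]
    positivity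

theorem ucs (h : Cd G ρ θ) (hα : ∀ i, ContDiffOn ℝ ∞ (fun z => α z i) (Om G e))
    {A B : ℝ} (hA : 0 ≤ A) (hB : 0 ≤ B) (hBθ : ∀ z, ‖dzb 0 (Th θ) z‖ ≤ B)
    (hb : ∀ z ∈ Om G e, ∀ i, ‖α z i‖ ≤ A) (he : 0 < e) :
    UniformCauchySeqOn (fun n => ww α (bp he n) θ) atTop {z : C2 | ‖z 0‖ ≤ ρ ∧ ‖z 1‖ < e} := by
  rw [Metric.uniformCauchySeqOn_iff]
  intro ε hε
  set M := mass (2 * ρ) * (B * A) with hM
  have hM0 : 0 ≤ M := by have := mass_nonneg (2 * ρ); positivity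
  obtain ⟨N, hN⟩ := small_ring (tendsto_eta e) (ε := ε / (2 * M + 1)) (by positivity)
  refine ⟨N, fun m hm n hn z hz => ?_⟩
  obtain ⟨hz0, hz1⟩ := hz
  have hout : ∀ n, (bp he n).rOut < e := fun n => eta_lt he (n + 1)
  rw [dist_eq_norm]
  have e1 : ww α (bp he m) θ z - ww α (bp he n) θ z =
      ∫ t : ℂ, ker1 t * (bt α (bp he m) θ (z - Pi.single 1 t) - bt α (bp he n) θ (z - Pi.single 1 t)) := by
    unfold ww
    rw [← T_sub (ρ := e) (contDiff_bt h hα (hout m)).continuous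
      (fun w hw => supp_bt w ((hout m).trans hw)) (contDiff_bt h hα (hout n)).continuous
      (fun w hw => supp_bt w ((hout n).trans hw)), T_eq]
  rw [e1]
  set S : Set ℂ := {t : ℂ | eta e N ≤ ‖z 1 - t‖ ∧ ‖z 1 - t‖ < e} with hS
  have hSm : MeasurableSet S := by
    have h1 : Measurable fun t : ℂ => ‖z 1 - t‖ := by fun_prop
    exact (measurableSet_le measurable_const h1).inter (measurableSet_lt h1 measurable_const)
  have hSsub : S ⊆ closedBall (0 : ℂ) (2 * e) := by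
    rintro t ⟨_, ht⟩
    rw [mem_closedBall_zero_iff]
    have := norm_sub_norm_le t (z 1)
    rw [norm_sub_rev] at this
    linarith
  have hint : IntegrableOn (fun t => ‖ker1 t‖) S := (integrableOn_ker (2 * e)).mono_set hSsub
  have hle : ‖∫ t : ℂ, ker1 t * (bt α (bp he m) θ (z - Pi.single 1 t) -
      bt α (bp he n) θ (z - Pi.single 1 t))‖ ≤ ∫ t, S.indicator (fun t => ‖ker1 t‖ * (2 * M)) t := by
    refine norm_integral_le_of_norm_le ?_ (Eventually.of_forall fun t => ?_)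
    · rw [integrable_indicator_iff hSm]
      exact hint.mul_const _
    · set y : C2 := z - Pi.single 1 t with hy
      have hy0 : y 0 = z 0 := by simp [hy]
      have hy1 : y 1 = z 1 - t := by simp [hy]
      rw [bt_eq, bt_eq, ← sub_mul, norm_mul]
      by_cases ht : t ∈ S
      · rw [indicator_of_mem ht]
        gcongr
        rw [norm_mul]
        have h1 : ‖Xi (bp he m) y - Xi (bp he n) y‖ ≤ 2 := by
          refine (norm_sub_le _ _).trans ?_
          linarith [norm_Xi_le (bp he m) y, norm_Xi_le (bp he n) y]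
        have h2 : ‖b0 α θ y‖ ≤ M :=
          norm_b0_le h hA hB hBθ hb (by rw [hy0]; exact hz0) (by rw [hy1]; exact ht.2)
        gcongr
      · rw [indicator_of_notMem ht]
        have h3 : Xi (bp he m) y - Xi (bp he n) y = 0 := by
          rcases lt_or_ge ‖z 1 - t‖ (eta e N) with h4 | h4
          · rw [Xi_eq_one (by rw [hy1, bp_rIn]; exact h4.le.trans (eta_mono he hm)),
              Xi_eq_one (by rw [hy1, bp_rIn]; exact h4.le.trans (eta_mono he hn)), sub_self]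
          · have h5 : e ≤ ‖z 1 - t‖ := by
              by_contra h6
              exact ht ⟨h4, not_le.1 h6⟩
            rw [Xi_eq_zero (by rw [hy1]; exact (hout m).le.trans h5),
              Xi_eq_zero (by rw [hy1]; exact (hout n).le.trans h5), sub_self]
        rw [h3, zero_mul, norm_zero, mul_zero]
  refine hle.trans_lt ?_
  rw [integral_indicator hSm, integral_mul_const]
  have h7 := hN N le_rfl (z 1) hz1
  calc (∫ t in S, ‖ker1 t‖) * (2 * M) ≤ ε / (2 * M + 1) * (2 * M) := by gcongr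
    _ < ε := by
      rw [div_mul_eq_mul_div, div_lt_iff₀ (by positivity)]
      nlinarith

/-- the limit of the second parts -/
theorem exists_w (h : Cd G ρ θ) (hα : ∀ i, ContDiffOn ℝ ∞ (fun z => α z i) (Om G e))
    {A B : ℝ} (hA : 0 ≤ A) (hB : 0 ≤ B) (hBθ : ∀ z, ‖dzb 0 (Th θ) z‖ ≤ B)
    (hb : ∀ z ∈ Om G e, ∀ i, ‖α z i‖ ≤ A) (he : 0 < e) {E : ℝ} (hE : e ≤ E) :
    ∃ w : C2 → ℂ, (∀ z, ‖z 0‖ ≤ ρ → ‖z 1‖ < e → ‖w z‖ ≤ mass (2 * E) * (mass (2 * ρ) * (B * A))) ∧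
      ∀ z, θ =ᶠ[𝓝 (z 0)] (fun _ => 1) → ‖z 1‖ < e →
        ContDiffAt ℝ ∞ w z ∧ dzb 0 w z = 0 ∧ dzb 1 w z = b0 α θ z := by
  have hucs := ucs h hα hA hB hBθ hb he
  set D : Set C2 := {z : C2 | ‖z 0‖ ≤ ρ ∧ ‖z 1‖ < e} with hD
  set w : C2 → ℂ := fun z => limUnder atTop fun n => ww α (bp he n) θ z with hw
  have hlim : ∀ z ∈ D, Tendsto (fun n => ww α (bp he n) θ z) atTop (𝓝 (w z)) := by
    intro z hz
    exact tendsto_nhds_limUnder (cauchySeq_tendsto_of_complete (hucs.cauchySeq hz))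
  have hunif : TendstoUniformlyOn (fun n => ww α (bp he n) θ) w atTop D :=
    hucs.tendstoUniformlyOn_of_tendsto hlim
  have hout : ∀ n, (bp he n).rOut < e := fun n => eta_lt he (n + 1)
  refine ⟨w, fun z h0 h1 => ?_, fun z hz0 hz1 => ?_⟩
  · exact le_of_tendsto (hlim z ⟨h0, h1⟩).norm
      (Eventually.of_forall fun n => norm_ww_le h hA hB hBθ hb he hE n h0 h1)
  · -- a neighbourhood
    obtain ⟨N, hN⟩ := ((tendsto_eta e).eventually (lt_mem_nhds hz1)).exists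
    obtain ⟨G', hG'θ, hG'o, hzG'⟩ := _root_.mem_nhds_iff.1 hz0
    set V : Set C2 := Om G' (eta e N) with hV
    have hVo : IsOpen V := isOpen_Om hG'o _
    have hzV : z ∈ V := ⟨hzG', hN⟩
    have hθ1 : ∀ y ∈ V, θ =ᶠ[𝓝 (y 0)] fun _ => 1 := fun y hy => by
      filter_upwards [hG'o.mem_nhds hy.1] with t ht
      exact hG'θ ht
    have hVD : V ⊆ D := fun y hy => by
      refine ⟨?_, lt_trans hy.2 (eta_lt he N)⟩
      have : y 0 ∈ G := by
        by_contra hcon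
        have h1 := (hθ1 y hy).self_of_nhds
        rw [(h.zero _ hcon).self_of_nhds] at h1
        exact zero_ne_one h1
      exact mem_closedBall_zero_iff.1 (h.sub this)
    have hbt : ∀ n ≥ N, ∀ y ∈ V, bt α (bp he n) θ y = b0 α θ y := fun n hn y hy => by
      rw [bt_eq, Xi_eq_one (by rw [bp_rIn]; exact (le_of_lt hy.2).trans (eta_mono he hn)), one_mul]
    have hsm : ∀ n, ContDiff ℝ ∞ (ww α (bp he n) θ) := fun n => contDiff_ww h hα (hout n)
    have hdf : ∀ n, Differentiable ℝ (ww α (bp he n) θ) := fun n => (hsm n).differentiable (by simp)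
    have hhol : ∀ n ≥ N, ∀ y ∈ V,
        DifferentiableAt ℂ (fun z => ww α (bp he n) θ z - ww α (bp he N) θ z) y := by
      intro n hn y hy
      have hds : DifferentiableAt ℝ (fun z => ww α (bp he n) θ z - ww α (bp he N) θ z) y :=
        (hdf n y).sub (hdf N y)
      rw [differentiableAt_complex_iff hds]
      intro j
      rw [dzb_sub (hdf n y) (hdf N y)]
      fin_cases j
      · change dzb 0 (ww α (bp he n) θ) y - dzb 0 (ww α (bp he N) θ) y = 0
        rw [dzb0_ww h hα (hout n) (hθ1 y hy), dzb0_ww h hα (hout N) (hθ1 y hy), sub_self]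
      · change dzb 1 (ww α (bp he n) θ) y - dzb 1 (ww α (bp he N) θ) y = 0
        rw [dzb1_ww h hα (hout n), dzb1_ww h hα (hout N), hbt n hn y hy, hbt N le_rfl y hy, sub_self]
    have hlo : DifferentiableOn ℂ (fun z => w z - ww α (bp he N) θ z) V := by
      refine H378.limit_open (l := atTop)
        (u := fun n z => ww α (bp he n) θ z - ww α (bp he N) θ z) hVo ?_ ?_ ?_
      · exact Eventually.of_forall fun n => ((hsm n).sub (hsm N)).contDiffOn.of_le (by simp)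
      · rw [Metric.tendstoUniformlyOn_iff]
        intro ε hε
        filter_upwards [Metric.tendstoUniformlyOn_iff.1 hunif ε hε] with n hn y hy
        rw [dist_sub_right]
        exact hn y (hVD hy)
      · intro ε hε
        filter_upwards [eventually_ge_atTop N] with n hn y hy v
        have h1 := hhol n hn y hy
        unfold H378.dbv
        rw [h1.fderiv_restrictScalars ℝ]
        simp only [ContinuousLinearMap.coe_restrictScalars', map_smul, smul_eq_mul]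
        rw [← mul_assoc, Complex.I_mul_I]
        simp only [neg_mul, one_mul, add_neg_cancel, norm_zero]
        positivity
    have han : AnalyticAt ℂ (fun z => w z - ww α (bp he N) θ z) z :=
      P268.analyticAt_of_differentiableOn hVo hlo hzV
    have hca : ContDiffAt ℝ ∞ (fun z => w z - ww α (bp he N) θ z) z :=
      (han.contDiffAt (n := ∞)).restrict_scalars ℝ
    have hweq : w = fun z => (w z - ww α (bp he N) θ z) + ww α (bp he N) θ z := by
      funext y; ring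
    have hda : DifferentiableAt ℝ (fun z => w z - ww α (bp he N) θ z) z :=
      hca.differentiableAt (by simp)
    have hdz : ∀ j, dzb j w z = dzb j (ww α (bp he N) θ) z := by
      intro j
      rw [hweq, dzb_add hda (hdf N z), dzb_of_hol han.differentiableAt, zero_add]
    refine ⟨?_, ?_, ?_⟩
    · rw [hweq]
      exact hca.add (hsm N).contDiffAt
    · rw [hdz, dzb0_ww h hα (hout N) hz0]
    · rw [hdz, dzb1_ww h hα (hout N), hbt N le_rfl z hzV]

end lim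

/-- **The `∂̄`-equation on `G × disc` without shrinking in the second variable**
(`K` is a closed subset of the bounded open set `G`). -/
theorem strip {G K : Set ℂ} (hG : IsOpen G) (hK : IsClosed K) (hKG : K ⊆ G) {ρ : ℝ}
    (hGρ : G ⊆ closedBall 0 ρ) (E : ℝ) :
    ∃ C, 0 ≤ C ∧ ∀ e, 0 < e → e ≤ E → ∀ (α : C2 → Fin 2 → ℂ) (A : ℝ), 0 ≤ A →
      (∀ i, ContDiffOn ℝ ∞ (fun z => α z i) (Om G e)) →
      (∀ z ∈ Om G e, dzb 0 (fun w => α w 1) z = dzb 1 (fun w => α w 0) z) →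
      (∀ z ∈ Om G e, ∀ i, ‖α z i‖ ≤ A) →
      ∃ φ : C2 → ℂ, ∀ z ∈ Om K e,
        ContDiffAt ℝ ∞ φ z ∧ (∀ i, dzb i φ z = α z i) ∧ ‖φ z‖ ≤ C * A := by
  obtain ⟨f, hf0, hf1, hf⟩ := exists_contMDiffMap_zero_one_nhds_of_isClosed (n := ⊤)
    (𝓘(ℝ, ℂ)) (s := Gᶜ) (t := K) hG.isClosed_compl hK
    (disjoint_compl_left_iff_subset.2 hKG)
  rw [eventually_nhdsSet_iff_forall] at hf0 hf1
  set θ : ℂ → ℝ := fun t => f t with hθ
  have h : Cd G ρ θ :=
    { isOpen := hG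
      smooth := f.contMDiff.contDiff
      zero := fun t ht => hf0 t ht
      sub := hGρ }
  obtain ⟨B, hB, hBθ⟩ := h.exists_bound
  have hm := mass_nonneg (2 * ρ)
  have hm' := mass_nonneg (2 * E)
  refine ⟨mass (2 * ρ) + mass (2 * E) * (mass (2 * ρ) * B), by positivity, ?_⟩
  intro e he hE α A hA hα hcl hb
  obtain ⟨w, hw1, hw2⟩ := exists_w h hα hA hB hBθ hb he hE
  refine ⟨fun z => v0 α θ z + w z, fun z hz => ?_⟩
  have hθz : θ =ᶠ[𝓝 (z 0)] fun _ => 1 := hf1 _ hz.1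
  have hz0 : ‖z 0‖ ≤ ρ := mem_closedBall_zero_iff.1 (hGρ (hKG hz.1))
  obtain ⟨hws, hwd0, hwd1⟩ := hw2 z hθz hz.2
  obtain ⟨N, hN⟩ := ((tendsto_eta e).eventually (lt_mem_nhds hz.2)).exists
  have hout : (bp he N).rOut < e := eta_lt he (N + 1)
  have hvev : v0 α θ =ᶠ[𝓝 z] vv α (bp he N) θ := by
    filter_upwards [continuous_norm1.continuousAt.eventually (isOpen_Iio.mem_nhds hN)] with y hy
    exact (vv_eq _ (le_of_lt hy)).symm
  have hvs : ContDiffAt ℝ ∞ (v0 α θ) z :=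
    (contDiff_vv h hα hout).contDiffAt.congr_of_eventuallyEq hvev
  have hgg : ∀ i, gg α (bp he N) θ i z = α z i := by
    intro i
    unfold gg
    rw [Xi_eq_one (le_of_lt hN)]
    have : Th θ z = 1 := by
      unfold Th
      rw [hθz.self_of_nhds]
      simp
    rw [this, one_mul, one_mul]
  refine ⟨hvs.add hws, ?_, ?_⟩
  · intro i
    rw [dzb_add (hvs.differentiableAt (by simp)) (hws.differentiableAt (by simp)),
      dzb_congr hvev]
    fin_cases i
    · change dzb 0 (vv α (bp he N) θ) z + dzb 0 w z = α z 0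
      rw [dzb0_vv h hα hout, hwd0, hgg, add_zero]
    · change dzb 1 (vv α (bp he N) θ) z + dzb 1 w z = α z 1
      rw [dzb1_vv h hα hcl hout hN, hwd1, bt_eq, Xi_eq_one (le_of_lt hN), hgg]
      ring
  · calc ‖v0 α θ z + w z‖ ≤ ‖v0 α θ z‖ + ‖w z‖ := norm_add_le _ _
      _ ≤ mass (2 * ρ) * A + mass (2 * E) * (mass (2 * ρ) * (B * A)) := by
          gcongr
          · exact norm_v0_le h hf hA hb hz0 hz.2
          · exact hw1 z hz0 hz.2
      _ = _ := by ring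

/-- the ring times the disc -/
def Rg (r₁ r₂ e : ℝ) : Set C2 := {z | r₁ < ‖z 0‖ ∧ ‖z 0‖ < r₂ ∧ ‖z 1‖ < e}

/-- the closed ring times the disc -/
def Rgc (r₁ r₂ e : ℝ) : Set C2 := {z | r₁ ≤ ‖z 0‖ ∧ ‖z 0‖ ≤ r₂ ∧ ‖z 1‖ < e}

theorem Rg_sub_Rgc (r₁ r₂ e : ℝ) : Rg r₁ r₂ e ⊆ Rgc r₁ r₂ e :=
  fun _ h => ⟨h.1.le, h.2.1.le, h.2.2⟩

theorem isOpen_Rg (r₁ r₂ e : ℝ) : IsOpen (Rg r₁ r₂ e) :=
  (isOpen_lt continuous_const (continuous_apply 0).norm).inter
    ((isOpen_lt (continuous_apply 0).norm continuous_const).inter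
      (isOpen_lt (continuous_apply 1).norm continuous_const))

/-- **ROUTE S, (S1)(a).** A closed bounded `(0,1)`-form on the ring `r₁ < |t| < r₂` times the disc
`|x| < e` is `∂̄` of a bounded function on the smaller ring times the SAME disc. -/
theorem ring {r₁ s₁ s₂ r₂ : ℝ} (h₁ : r₁ < s₁) (h₂ : s₂ < r₂) (E : ℝ) :
    ∃ C, 0 ≤ C ∧ ∀ e, 0 < e → e ≤ E → ∀ (α : C2 → Fin 2 → ℂ) (A : ℝ), 0 ≤ A →
      (∀ i, ContDiffOn ℝ ∞ (fun z => α z i) (Rg r₁ r₂ e)) →
      (∀ z ∈ Rg r₁ r₂ e, dzb 0 (fun w => α w 1) z = dzb 1 (fun w => α w 0) z) →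
      (∀ z ∈ Rg r₁ r₂ e, ∀ i, ‖α z i‖ ≤ A) →
      ∃ φ : C2 → ℂ, ∀ z ∈ Rgc s₁ s₂ e,
        ContDiffAt ℝ ∞ φ z ∧ (∀ i, dzb i φ z = α z i) ∧ ‖φ z‖ ≤ C * A := by
  have hG : IsOpen {t : ℂ | r₁ < ‖t‖ ∧ ‖t‖ < r₂} :=
    (isOpen_lt continuous_const continuous_norm).inter (isOpen_lt continuous_norm continuous_const)
  have hK : IsClosed {t : ℂ | s₁ ≤ ‖t‖ ∧ ‖t‖ ≤ s₂} :=
    (isClosed_le continuous_const continuous_norm).inter
      (isClosed_le continuous_norm continuous_const)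
  obtain ⟨C, hC, h⟩ := strip hG hK (fun t ht => ⟨h₁.trans_le ht.1, ht.2.trans_lt h₂⟩)
    (ρ := r₂) (fun t ht => mem_closedBall_zero_iff.2 ht.2.le) E
  have hO : ∀ e, Om {t : ℂ | r₁ < ‖t‖ ∧ ‖t‖ < r₂} e = Rg r₁ r₂ e := fun e => by
    ext z
    exact ⟨fun hz => ⟨hz.1.1, hz.1.2, hz.2⟩, fun hz => ⟨⟨hz.1, hz.2.1⟩, hz.2.2⟩⟩
  refine ⟨C, hC, fun e he hE α A hA hα hcl hb => ?_⟩
  obtain ⟨φ, hφ⟩ := h e he hE α A hA (by rwa [hO]) (by rwa [hO]) (by rwa [hO])
  exact ⟨φ, fun z hz => hφ z ⟨⟨hz.1, hz.2.1⟩, hz.2.2⟩⟩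

end Vale.Agent.P267.H826.Ring
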