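import Vale.Agent.P267.H515.HSp
import Vale.Agent.P267.H826.Comp
import Vale.Agent.P267.H399.Wirt
import Mathlib.Analysis.Calculus.FDeriv.Partial

/-!
# P267 / EG-NN: from the partial derivatives in the space `H` to maps of class `C¹` on `ℂ²`
-/

open Set Filter Topology
open scoped ContDiff NNReal ComplexConjugate
open Vale.Agent.P272.K.LIN Vale.Agent.P267.H515

noncomputable section

set_option linter.unusedSectionVars false

namespace Vale.Agent.P267.H826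

/-- the elements of `H` are (jointly) continuous -/
theorem H_continuous (f : H) : Continuous fun z : ℂ × ℂ => f z.1 z.2 := by
  rw [continuous_iff_continuousAt]
  intro z
  have h1 : ∀ y : ℂ × ℂ, dist (f y.1 y.2) (f z.1 z.2) ≤
      ‖f‖ * ‖y.1 - z.1‖ ^ (1 / 2 : ℝ) + ‖f‖ * ‖y.2 - z.2‖ ^ (1 / 2 : ℝ) := by
    intro y
    rw [dist_eq_norm]
    have e : f y.1 y.2 - f z.1 z.2 = (f y.1 y.2 - f z.1 y.2) + (f z.1 y.2 - f z.1 z.2) := by ring
    rw [e]
    exact (norm_add_le _ _).trans (add_le_add (hh_fst_le f y.1 z.1 y.2) (hh_snd_le f z.1 y.2 z.2))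
  refine tendsto_iff_dist_tendsto_zero.2 (squeeze_zero (fun _ => dist_nonneg) h1 ?_)
  have h2 : Continuous fun y : ℂ × ℂ => ‖f‖ * ‖y.1 - z.1‖ ^ (1 / 2 : ℝ) +
      ‖f‖ * ‖y.2 - z.2‖ ^ (1 / 2 : ℝ) := by
    refine (continuous_const.mul ?_).add (continuous_const.mul ?_)
    · exact (continuous_fst.sub continuous_const).norm.rpow_const fun _ => Or.inr (by norm_num)
    · exact (continuous_snd.sub continuous_const).norm.rpow_const fun _ => Or.inr (by norm_num)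
  have h3 := h2.tendsto z
  simpa using h3

theorem continuous_cpl {α : Type*} [TopologicalSpace α] {f g : α → ℂ} (hf : Continuous f)
    (hg : Continuous g) : Continuous fun x => cpl (f x) (g x) := by
  unfold cpl
  exact ((ContinuousLinearMap.mul ℝ ℂ).continuous.comp hf).add
    (((ContinuousLinearMap.mul ℝ ℂ).continuous.comp hg).clm_comp continuous_const)

/-- the derivative in both variables -/
theorem H_hasStrictFDerivAt {f p1 r1 p2 r2 : H} (h1 : D1 f p1 r1) (h2 : D2 f p2 r2) (z : ℂ × ℂ) :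
    HasStrictFDerivAt (fun z : ℂ × ℂ => f z.1 z.2)
      ((cpl (p1 z.1 z.2) (r1 z.1 z.2)).coprod (cpl (p2 z.1 z.2) (r2 z.1 z.2))) z :=
  hasStrictFDerivAt_uncurry_coprod (f := fun a b => f a b)
    (f₁ := fun a b => cpl (p1 a b) (r1 a b)) (f₂ := fun a b => cpl (p2 a b) (r2 a b))
    (Eventually.of_forall fun v => h1 v.2 v.1) (Eventually.of_forall fun v => h2 v.1 v.2)
    (continuous_cpl (H_continuous p1) (H_continuous r1)).continuousAt
    (continuous_cpl (H_continuous p2) (H_continuous r2)).continuousAt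

/-- the projection of `Fin 2 → ℂ` to `ℂ × ℂ` -/
def pr2 : (Fin 2 → ℂ) →L[ℝ] ℂ × ℂ :=
  (ContinuousLinearMap.proj (R := ℝ) (φ := fun _ : Fin 2 => ℂ) 0).prod
    (ContinuousLinearMap.proj (R := ℝ) (φ := fun _ : Fin 2 => ℂ) 1)

@[simp] theorem pr2_apply (x : Fin 2 → ℂ) : pr2 x = (x 0, x 1) := rfl

/-- the differential of a function on `Fin 2 → ℂ` given by the two partial differentials -/
def dd (a b c d : ℂ) : (Fin 2 → ℂ) →L[ℝ] ℂ := ((cpl a b).coprod (cpl c d)).comp pr2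

theorem dd_apply (a b c d : ℂ) (v : Fin 2 → ℂ) :
    dd a b c d v = (a * v 0 + b * conj (v 0)) + (c * v 1 + d * conj (v 1)) := rfl

theorem norm_dd_le (a b c d : ℂ) : ‖dd a b c d‖ ≤ (‖a‖ + ‖b‖) + (‖c‖ + ‖d‖) := by
  refine ContinuousLinearMap.opNorm_le_bound _ (by positivity) fun v => ?_
  rw [dd_apply]
  have h0 : ‖v 0‖ ≤ ‖v‖ := norm_le_pi_norm v 0
  have h1 : ‖v 1‖ ≤ ‖v‖ := norm_le_pi_norm v 1
  calc ‖(a * v 0 + b * conj (v 0)) + (c * v 1 + d * conj (v 1))‖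
      ≤ (‖a * v 0‖ + ‖b * conj (v 0)‖) + (‖c * v 1‖ + ‖d * conj (v 1)‖) :=
        (norm_add_le _ _).trans (add_le_add (norm_add_le _ _) (norm_add_le _ _))
    _ = (‖a‖ * ‖v 0‖ + ‖b‖ * ‖v 0‖) + (‖c‖ * ‖v 1‖ + ‖d‖ * ‖v 1‖) := by
        simp only [norm_mul, RCLike.norm_conj]
    _ ≤ (‖a‖ * ‖v‖ + ‖b‖ * ‖v‖) + (‖c‖ * ‖v‖ + ‖d‖ * ‖v‖) := by gcongr
    _ = ((‖a‖ + ‖b‖) + (‖c‖ + ‖d‖)) * ‖v‖ := by ring

theorem dd_sub (a b c d a' b' c' d' : ℂ) :
    dd a b c d - dd a' b' c' d' = dd (a - a') (b - b') (c - c') (d - d') := by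
  ext1 v
  simp only [_root_.sub_apply, dd_apply]
  ring

/-- an element of `H` as a function on `Fin 2 → ℂ` -/
def toF (f : H) (x : Fin 2 → ℂ) : ℂ := f (x 0) (x 1)

theorem toF_hasStrictFDerivAt {f p1 r1 p2 r2 : H} (h1 : D1 f p1 r1) (h2 : D2 f p2 r2)
    (x : Fin 2 → ℂ) :
    HasStrictFDerivAt (toF f) (dd (toF p1 x) (toF r1 x) (toF p2 x) (toF r2 x)) x :=
  (H_hasStrictFDerivAt h1 h2 (pr2 x)).comp x pr2.hasStrictFDerivAt

theorem toF_continuous (f : H) : Continuous (toF f) :=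
  (H_continuous f).comp pr2.continuous

theorem toF_fderiv {f p1 r1 p2 r2 : H} (h1 : D1 f p1 r1) (h2 : D2 f p2 r2) (x : Fin 2 → ℂ) :
    fderiv ℝ (toF f) x = dd (toF p1 x) (toF r1 x) (toF p2 x) (toF r2 x) :=
  (toF_hasStrictFDerivAt h1 h2 x).hasFDerivAt.fderiv

theorem toF_contDiff {f p1 r1 p2 r2 : H} (h1 : D1 f p1 r1) (h2 : D2 f p2 r2) :
    ContDiff ℝ 1 (toF f) := by
  rw [contDiff_one_iff_hasFDerivAt]
  refine ⟨fun x => dd (toF p1 x) (toF r1 x) (toF p2 x) (toF r2 x), ?_, fun x =>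
    (toF_hasStrictFDerivAt h1 h2 x).hasFDerivAt⟩
  unfold dd
  refine Continuous.clm_comp ?_ continuous_const
  have h3 : Continuous fun x : Fin 2 → ℂ => (cpl (toF p1 x) (toF r1 x)) :=
    continuous_cpl (toF_continuous p1) (toF_continuous r1)
  have h4 : Continuous fun x : Fin 2 → ℂ => (cpl (toF p2 x) (toF r2 x)) :=
    continuous_cpl (toF_continuous p2) (toF_continuous r2)
  have e : ∀ L M : ℂ →L[ℝ] ℂ, L.coprod M = L.comp (ContinuousLinearMap.fst ℝ ℂ ℂ) +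
      M.comp (ContinuousLinearMap.snd ℝ ℂ ℂ) := fun L M => by
    ext <;> simp
  simp only [e]
  exact (h3.clm_comp continuous_const).add (h4.clm_comp continuous_const)

open Vale.Agent.P267.FL in
theorem dz0_toF {f p1 r1 p2 r2 : H} (h1 : D1 f p1 r1) (h2 : D2 f p2 r2) (x : Fin 2 → ℂ) :
    dz 0 (toF f) x = toF p1 x ∧ dz 1 (toF f) x = toF p2 x ∧
    dzb 0 (toF f) x = toF r1 x ∧ dzb 1 (toF f) x = toF r2 x := by
  have hI := Complex.I_mul_I
  have key : dz 0 (toF f) x = toF p1 x ∧ dz 1 (toF f) x = toF p2 x ∧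
      dzb 0 (toF f) x = toF r1 x ∧ dzb 1 (toF f) x = toF r2 x := by
    simp only [dz, dzb, toF_fderiv h1 h2, dd_apply, Pi.single_eq_same, smul_eq_mul]
    simp only [Pi.single, Function.update, map_one, Complex.conj_I]
    simp
    refine ⟨?_, ?_, ?_, ?_⟩
    · linear_combination (-1 / 2 * toF p1 x + 1 / 2 * toF r1 x) * hI
    · linear_combination (-1 / 2 * toF p2 x + 1 / 2 * toF r2 x) * hI
    · linear_combination (1 / 2 * toF p1 x - 1 / 2 * toF r1 x) * hI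
    · linear_combination (1 / 2 * toF p2 x - 1 / 2 * toF r2 x) * hI
  exact key

/-! ### maps `ℂ² → ℂ²` -/

/-- a pair of elements of `H` as a map -/
def toM (w : Fin 2 → H) (x : Fin 2 → ℂ) : Fin 2 → ℂ := fun i => toF (w i) x

section map

variable {w p1 r1 p2 r2 : Fin 2 → H}

theorem toM_contDiff (h1 : ∀ i, D1 (w i) (p1 i) (r1 i)) (h2 : ∀ i, D2 (w i) (p2 i) (r2 i)) :
    ContDiff ℝ 1 (toM w) :=
  contDiff_pi.2 fun i => toF_contDiff (h1 i) (h2 i)

theorem toM_hasStrictFDerivAt (h1 : ∀ i, D1 (w i) (p1 i) (r1 i))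
    (h2 : ∀ i, D2 (w i) (p2 i) (r2 i)) (x : Fin 2 → ℂ) :
    HasStrictFDerivAt (toM w) (ContinuousLinearMap.pi fun i =>
      dd (toF (p1 i) x) (toF (r1 i) x) (toF (p2 i) x) (toF (r2 i) x)) x :=
  hasStrictFDerivAt_pi.2 fun i => toF_hasStrictFDerivAt (h1 i) (h2 i) x

theorem toM_fderiv (h1 : ∀ i, D1 (w i) (p1 i) (r1 i)) (h2 : ∀ i, D2 (w i) (p2 i) (r2 i))
    (x : Fin 2 → ℂ) : fderiv ℝ (toM w) x = ContinuousLinearMap.pi fun i =>
      dd (toF (p1 i) x) (toF (r1 i) x) (toF (p2 i) x) (toF (r2 i) x) :=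
  (toM_hasStrictFDerivAt h1 h2 x).hasFDerivAt.fderiv

theorem id_eq_pi_dd : ContinuousLinearMap.id ℝ (Fin 2 → ℂ) = ContinuousLinearMap.pi fun i =>
    dd (if i = 0 then 1 else 0) 0 (if i = 1 then 1 else 0) 0 := by
  ext v i
  fin_cases i <;> simp [dd_apply]

/-- closeness of the differential to the identity -/
theorem toM_fderiv_close (h1 : ∀ i, D1 (w i) (p1 i) (r1 i)) (h2 : ∀ i, D2 (w i) (p2 i) (r2 i))
    (x : Fin 2 → ℂ) {c : ℝ} (hc : 0 ≤ c)
    (e1 : ∀ i, ‖toF (p1 i) x - if i = 0 then 1 else 0‖ ≤ c) (e2 : ∀ i, ‖toF (r1 i) x‖ ≤ c)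
    (e3 : ∀ i, ‖toF (p2 i) x - if i = 1 then 1 else 0‖ ≤ c) (e4 : ∀ i, ‖toF (r2 i) x‖ ≤ c) :
    ‖fderiv ℝ (toM w) x - ContinuousLinearMap.id ℝ (Fin 2 → ℂ)‖ ≤ 4 * c := by
  rw [toM_fderiv h1 h2, id_eq_pi_dd]
  refine ContinuousLinearMap.opNorm_le_bound _ (by positivity) fun v => ?_
  refine (pi_norm_le_iff_of_nonneg (by positivity)).2 fun i => ?_
  have h3 : ∀ L M : (Fin 2 → ℂ) →L[ℝ] (Fin 2 → ℂ), (L - M) v i = L v i - M v i :=
    fun L M => rfl
  rw [h3, ContinuousLinearMap.pi_apply, ContinuousLinearMap.pi_apply, ← _root_.sub_apply, dd_sub,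
    sub_zero, sub_zero]
  refine (ContinuousLinearMap.le_opNorm _ _).trans
    (mul_le_mul_of_nonneg_right ((norm_dd_le _ _ _ _).trans ?_) (norm_nonneg _))
  linarith [e1 i, e2 i, e3 i, e4 i]

end map

end Vale.Agent.P267.H826
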